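import Vale.Agent.P146.U.H240.PureT
import Vale.Agent.P146.U.H393.Ex2M

/-!
Head and tail of the laws of the SK model with the exponents `x` on `[0, 1 - T]` and
`b ∈ [x, 2 x]` on `[1 - T, 1]`.
-/

open MeasureTheory ProbabilityTheory

namespace Vale.Agent.P146.U.H240

open Vale.Agent.P157.Lv Vale.Agent.P146 Vale.Agent.P146.H425 Vale.Agent.P146.R1
  Vale.Agent.P146.H332 Vale.Agent.P146.H325 Vale.Agent.P146.U

set_option linter.unusedSectionVars false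

variable {β x b : ℝ} {n : ℕ}

/-- the share of the window against the increment of the functional -/
lemma SS_le_incr {κ : Type} [Fintype κ] {F : (κ → ℝ) → ℝ} {D : κ → (κ → ℝ) → ℝ} {B L b' V T : ℝ}
    (h : C11 F D B L) (hc : Cv F) (hx : 0 < x) (hxb : x ≤ b) (hbb : 2 * b ≤ b')
    (hV : PT x b' T F - PT x x T F ≤ V) :
    SS x b (√(1 - T)) (√T) F ≤ 4 / b' * V := by
  have hb := hx.trans_le hxb
  have hb' : 0 < b' := by linarith
  have h1 := PP_tangent (c := √(1 - T)) (s := √T) h hc hx hb hb'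
  have h2 := PT_mono_b h hc hx hx hxb T
  have h3 := SS_nonneg (x := x) (c := √(1 - T)) (s := √T) h hb
  unfold PT at hV h2
  have h4 : b' / 4 * SS x b (√(1 - T)) (√T) F ≤ (b' - b) / 2 * SS x b (√(1 - T)) (√T) F :=
    mul_le_mul_of_nonneg_right (by linarith) h3
  have h5 : b' / 4 * SS x b (√(1 - T)) (√T) F ≤ V := by linarith
  rw [div_mul_eq_mul_div, le_div_iff₀ hb']
  linarith

/-- **The head.** -/
theorem head (h2 : Ex2Strong β) : ∃ C : ℝ, ∃ n0 : ℕ, 0 < C ∧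
    ∀ n : ℕ, n0 ≤ n → ∀ x b T : ℝ, (n : ℝ) ^ (-(1 / 6) : ℝ) ≤ x → x ≤ (n : ℝ) ^ (-(1 / 10) : ℝ) →
      x ≤ b → b ≤ 2 * x → 0 < T → T ≤ x ^ 2 →
      SS x b (√(1 - T)) (√T) (Fsk n β) ≤ C * (n * x ^ 4 * (T / x ^ 2) ^ (1 / 600 : ℝ)) := by
  obtain ⟨C, η, n0, hC, hη, hη1, h⟩ := h2
  refine ⟨4 ^ 6 * C, max n0 1, by positivity, fun n hn x b T hx hx' hxb hb hT hTx => ?_⟩
  have hn1 : 1 ≤ n := (le_max_right _ _).trans hn
  have hnR : (1 : ℝ) ≤ n := by exact_mod_cast hn1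
  obtain ⟨hx0, -⟩ := f_x6 hn1 hx
  have hx1 : x ≤ 1 := hx'.trans (Real.rpow_le_one_of_one_le_of_nonpos hnR (by norm_num))
  have hx2 : 0 < x ^ 2 := by positivity
  have hx21 : x ^ 2 ≤ 1 := pow_le_one₀ hx0.le hx1
  obtain ⟨s, hs⟩ : ∃ s, s = T / x ^ 2 := ⟨_, rfl⟩
  have hs0 : 0 < s := by
    rw [hs]
    positivity
  have hs1 : s ≤ 1 := by
    rw [hs, div_le_one hx2]
    exact hTx
  obtain ⟨u, hu⟩ : ∃ u, u = s ^ (-(1 / 600) : ℝ) := ⟨_, rfl⟩
  have hu1 : 1 ≤ u := by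
    rw [hu]
    exact Real.one_le_rpow_of_pos_of_le_one_of_nonpos hs0 hs1 (by norm_num)
  have hu0 : 0 < u := by linarith
  have hηu : s ^ (-η) ≤ u := by
    rw [hu]
    exact Real.rpow_le_rpow_of_exponent_ge hs0 hs1 (by linarith)
  have hb' : x * (T / x ^ 2) ^ (-η) ≤ 4 * x * u := by
    rw [← hs]
    have h1 := mul_le_mul_of_nonneg_left hηu hx0.le
    have h3 : 0 ≤ x * u := by positivity
    linarith
  have h4u : 2 * b ≤ 4 * x * u := by
    have : 4 * x * 1 ≤ 4 * x * u := mul_le_mul_of_nonneg_left hu1 (by positivity)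
    linarith
  have h1 := h n ((le_max_left _ _).trans hn) x (4 * x * u) T hx hx' (by linarith) hT
    (hTx.trans hx21) hb'
  rw [← hs] at h1 ⊢
  have h3 := SS_le_incr (x := x) (b := b) (T := T) (AP.c11_Fsk n β) (AP.cv_Fsk n β) hx0 hxb h4u h1
  refine h3.trans (le_of_eq ?_)
  have e1 : s ^ (1 / 100 : ℝ) = s ^ (1 / 600 : ℝ) * (s ^ (1 / 600 : ℝ)) ^ 5 := by
    rw [← pow_succ', ← Real.rpow_natCast, ← Real.rpow_mul hs0.le]
    norm_num
  have e2 : u * s ^ (1 / 600 : ℝ) = 1 := by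
    rw [hu, ← Real.rpow_add hs0]
    norm_num
  have e3 : 4 * x * u / x = 4 * u := by
    field_simp
  rw [e3, e1]
  generalize s ^ (1 / 600 : ℝ) = v at e2
  have e4 : 4 / (4 * x * u) * (C * (n * x ^ 4 * (4 * x * u) * (4 * u) ^ 5 * (v * v ^ 5))) =
      4 ^ 6 * C * (n * x ^ 4 * v) * (u * v) ^ 5 := by
    field_simp
  rw [e4, e2]
  ring

/-- **The tail.** -/
theorem tail1 (hβ : 0 ≤ β) (h2 : Ex2Out β) (hL : LStar β) : ∃ C : ℝ, ∃ n0 : ℕ, 0 < C ∧
    ∀ n : ℕ, n0 ≤ n → ∀ x b T : ℝ, (n : ℝ) ^ (-(1 / 6) : ℝ) ≤ x → x ≤ (n : ℝ) ^ (-(1 / 10) : ℝ) →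
      x ≤ b → b ≤ 2 * x → x ^ 2 ≤ T → T ≤ 1 →
      T * Ps x b (√(1 - T)) (√T) (Fsk n β) (fun e u => β / √n * H325.av (β / √n) SkS (SkS e) u) ≤
        C * (n * x ^ 4 * (x ^ 2 / T) ^ (1 / 1000 : ℝ)) := by
  obtain ⟨C2, n2, hC2, hU⟩ := h2
  obtain ⟨CL, Λ1, nL, hCL, hHL⟩ := hl_of hL
  obtain ⟨s, hs⟩ : ∃ s : ℝ, s = 4 + 16 * C2 + 16 * |Λ1| + 16 * CL := ⟨_, rfl⟩
  have hΛa := le_abs_self Λ1
  have hΛ0 := abs_nonneg Λ1
  have hs4 : 4 ≤ s := by
    rw [hs]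
    linarith
  have hsM : 16 * C2 ≤ s := by
    rw [hs]
    linarith
  have hsΛ : 16 * Λ1 ≤ s := by
    rw [hs]
    linarith
  have hsC : 16 * CL ≤ s := by
    rw [hs]
    linarith
  have hs0 : 0 < s := by linarith
  refine ⟨4 * (4 ^ 6 * C2 * s ^ 22) + 4, max (max n2 nL) (2 ^ 11), by positivity,
    fun n hn x b T hx hx' hxb hb hT0 hT1 => ?_⟩
  have hn2 : n2 ≤ n := (le_max_left _ _).trans ((le_max_left _ _).trans hn)
  have hnL : nL ≤ n := (le_max_right _ _).trans ((le_max_left _ _).trans hn)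
  have hn11 : 2 ^ 11 ≤ n := (le_max_right _ _).trans hn
  have hn1 : 1 ≤ n := by omega
  have hnR : (2 : ℝ) ^ 11 ≤ n := by exact_mod_cast hn11
  have hn0 : (0 : ℝ) < n := by linarith [show (0 : ℝ) < 2 ^ 11 by norm_num]
  obtain ⟨hx0, hx6⟩ := f_x6 hn1 hx
  have hx12 : 2 * x < 1 := by
    have h1 : (n : ℝ) ^ (-(1 / 10) : ℝ) ≤ ((2 : ℝ) ^ 11) ^ (-(1 / 10) : ℝ) :=
      Real.rpow_le_rpow_of_nonpos (by norm_num) hnR (by norm_num)
    have h3 : ((2 : ℝ) ^ 11) ^ (-(1 / 10) : ℝ) < 1 / 2 := by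
      have e : (1 / 2 : ℝ) = (2 : ℝ) ^ (-1 : ℝ) := by
        rw [Real.rpow_neg_one]
        norm_num
      rw [e, ← Real.rpow_natCast, ← Real.rpow_mul (by norm_num)]
      exact Real.rpow_lt_rpow_of_exponent_lt (by norm_num) (by norm_num)
    linarith
  have hb0 : 0 < b := hx0.trans_le hxb
  have hx2 : 0 < x ^ 2 := by positivity
  have hG0 : 0 < (n : ℝ) * x ^ 4 := by positivity
  have hup : UP ((n : ℝ) * x ^ 4) x C2 (Fsk n β) := by
    intro b T hb hT0 hT1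
    have h1 := hU n hn2 x b T hx hx' hb hT0 hT1
    have hT : 0 ≤ T := le_trans (by positivity) hT0
    rw [AP.P2_self hx0 hT (by linarith)] at h1
    exact h1
  have hE : HE n x C2 Λ1 CL s (Fsk n β) := ⟨hn0, hx6, hx0, by linarith, hC2, hCL, hup,
    hHL n hnL x hx hx', hs4, hsM, hsΛ, hsC⟩
  have hC1 : 0 < 4 ^ 6 * C2 * s ^ 22 := by positivity
  -- windows up to `1 / 2`
  have key : ∀ t : ℝ, x ^ 2 ≤ t → t ≤ 1 / 2 →
      t * ST x b t (Fsk n β) (fun e u => β / √n * H325.av (β / √n) SkS (SkS e) u) ≤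
        (4 ^ 6 * C2 * s ^ 22 + 1) * (n * x ^ 4 * (x ^ 2 / t) ^ (1 / 1000 : ℝ)) := by
    intro t ht0 ht1
    have htp : 0 < t := hx2.trans_le ht0
    have hr0 : 0 ≤ n * x ^ 4 * (x ^ 2 / t) ^ (1 / 1000 : ℝ) := by positivity
    rcases le_total (x ^ 2 * s ^ 2000) t with hle | hge
    · refine (e_gradb (AP.c11_Fsk n β) (AP.cv_Fsk n β) hE hle ht1 hxb hb).trans ?_
      refine le_mul_of_one_le_left hr0 ?_
      linarith
    · have h1 := hup.bd hG0 hx0 hC2.le (by linarith : 1 ≤ s) (show x ≤ 4 * x by linarith) ht1 ht0 hge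
      have h2 : PT x (4 * x) t (Fsk n β) - PT x x t (Fsk n β) ≤
          C2 * (n * x ^ 4 * (4 * x) * (4 * x / x) ^ 5 * s ^ 20) := by
        rw [PT_self (AP.c11_Fsk n β) hx0 htp.le (by linarith)]
        exact h1
      have h3 := SS_le_incr (x := x) (b := b) (T := t) (AP.c11_Fsk n β) (AP.cv_Fsk n β) hx0 hxb
        (by linarith) h2
      have h4 := SS_ge (x := x) (c := √(1 - t)) (s := √t) (AP.c11_Fsk n β) hb0
      rw [Real.sq_sqrt htp.le] at h4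
      refine (h4.trans h3).trans ?_
      have e : 4 / (4 * x) * (C2 * (n * x ^ 4 * (4 * x) * (4 * x / x) ^ 5 * s ^ 20)) =
          4 ^ 6 * C2 * s ^ 22 * (n * x ^ 4 * (1 / s ^ 2)) := by
        field_simp
      rw [e]
      have h5 : 1 / s ^ 2 ≤ (x ^ 2 / t) ^ (1 / 1000 : ℝ) := by
        have h6 : 1 / s ^ 2000 ≤ x ^ 2 / t := by
          rw [div_le_div_iff₀ (by positivity) htp, one_mul]
          exact hge
        have h7 : (1 / s ^ 2000) ^ (1 / 1000 : ℝ) = 1 / s ^ 2 := by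
          rw [Real.div_rpow zero_le_one (by positivity), Real.one_rpow]
          congr 1
          generalize s = v at hs0
          rw [← Real.rpow_natCast, ← Real.rpow_mul hs0.le, ← Real.rpow_natCast]
          norm_num
        rw [← h7]
        exact Real.rpow_le_rpow (by positivity) h6 (by norm_num)
      have h8 : n * x ^ 4 * (1 / s ^ 2) ≤ n * x ^ 4 * (x ^ 2 / t) ^ (1 / 1000 : ℝ) :=
        mul_le_mul_of_nonneg_left h5 hG0.le
      exact mul_le_mul (by linarith) h8 (by positivity) (by positivity)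
  have hTp : 0 < T := hx2.trans_le hT0
  rcases le_total T (1 / 2) with hle | hge
  · refine (key T hT0 hle).trans (mul_le_mul_of_nonneg_right (by linarith) (by positivity))
  · have hx22 : x ^ 2 ≤ 1 / 2 := by nlinarith
    have h1 := key (1 / 2) hx22 le_rfl
    have h2 : ST x b T (Fsk n β) (fun e u => β / √n * H325.av (β / √n) SkS (SkS e) u) ≤
        ST x b (1 / 2) (Fsk n β) (fun e u => β / √n * H325.av (β / √n) SkS (SkS e) u) := by
      rcases hxb.eq_or_lt with e | hlt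
      · rw [← e]
        exact ST_self_anti (AP.c11_Fsk n β) hx0 (by norm_num) hge hT1
      · exact H676.PT_anti (H676.gg_SkS n) (by positivity) (AP.c11_Fsk n β) hx0 hlt (by linarith)
          (by norm_num) hge hT1
    have h3 : 0 ≤ ST x b (1 / 2) (Fsk n β) (fun e u => β / √n * H325.av (β / √n) SkS (SkS e) u) :=
      Ps_nonneg (AP.c11_Fsk n β) hb0
    have h4 : (x ^ 2 / (1 / 2)) ^ (1 / 1000 : ℝ) ≤ 2 * (x ^ 2 / T) ^ (1 / 1000 : ℝ) := by
      have h5 : x ^ 2 / (1 / 2) ≤ 2 * (x ^ 2 / T) := by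
        have : x ^ 2 ≤ x ^ 2 / T := by
          rw [le_div_iff₀ hTp]
          exact mul_le_of_le_one_right hx2.le hT1
        linarith
      have h6 : (2 : ℝ) ^ (1 / 1000 : ℝ) ≤ 2 := by
        have := Real.rpow_le_rpow_of_exponent_le (x := 2) (by norm_num)
          (show (1 / 1000 : ℝ) ≤ 1 by norm_num)
        rwa [Real.rpow_one] at this
      calc (x ^ 2 / (1 / 2)) ^ (1 / 1000 : ℝ) ≤ (2 * (x ^ 2 / T)) ^ (1 / 1000 : ℝ) :=
            Real.rpow_le_rpow (by positivity) h5 (by norm_num)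
        _ = 2 ^ (1 / 1000 : ℝ) * (x ^ 2 / T) ^ (1 / 1000 : ℝ) :=
            Real.mul_rpow (by norm_num) (by positivity)
        _ ≤ _ := mul_le_mul_of_nonneg_right h6 (by positivity)
    have h7 : T * ST x b T (Fsk n β) (fun e u => β / √n * H325.av (β / √n) SkS (SkS e) u) ≤
        2 * (1 / 2 * ST x b (1 / 2) (Fsk n β)
          (fun e u => β / √n * H325.av (β / √n) SkS (SkS e) u)) := by
      have h8 := mul_le_mul hT1 h2 (Ps_nonneg (AP.c11_Fsk n β) hb0) zero_le_one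
      linarith
    refine h7.trans ((mul_le_mul_of_nonneg_left h1 (by norm_num)).trans ?_)
    have h9 : n * x ^ 4 * (x ^ 2 / (1 / 2)) ^ (1 / 1000 : ℝ) ≤
        n * x ^ 4 * (2 * (x ^ 2 / T) ^ (1 / 1000 : ℝ)) := mul_le_mul_of_nonneg_left h4 hG0.le
    have h10 := mul_le_mul_of_nonneg_left h9 (show 0 ≤ 2 * (4 ^ 6 * C2 * s ^ 22 + 1) by positivity)
    have e : 2 * (4 ^ 6 * C2 * s ^ 22 + 1) * (n * x ^ 4 * (2 * (x ^ 2 / T) ^ (1 / 1000 : ℝ))) =
      (4 * (4 ^ 6 * C2 * s ^ 22) + 4) * (n * x ^ 4 * (x ^ 2 / T) ^ (1 / 1000 : ℝ)) := by ring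
    rw [e] at h10
    linarith

end Vale.Agent.P146.U.H240
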