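import Vale.Agent.P146.U.H240.KL
import Vale.Agent.P146.U.H640_LamCS

/-!
The hypothesis `LamC` of `kstar_of`.
-/

namespace Vale.Agent.P146.U.H240

/-- **The output of the block LAM.** -/
theorem lamC {β : ℝ} (hβ : 0 < β) (Γ : ℝ) (hΓ : 0 ≤ Γ) : LamC β Γ := by
  obtain ⟨C, hC, n₀, h⟩ := R1S.lam_cs_out hβ hΓ
  exact ⟨C, 12, n₀, by linarith, fun n hn q S A δ T ρ Λ B L M HF TF hA hSm hFn hMt hf =>
    h n hn β le_rfl q S A δ T ρ Λ B L M HF TF hA hSm hFn hMt hf⟩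

end Vale.Agent.P146.U.H240
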