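import Vale.Agent.P146.U.H240.KSt
import Vale.Agent.P146.U.H240.LamD
import Vale.Agent.P146.U.H325_KapR

/-!
**The K-side**: `KStar` for every inverse temperature.
-/

namespace Vale.Agent.P146.U.H240

/-- **The output of the block KAP.** -/
theorem kapC {β : ℝ} (hβ : 0 < β) (Γ κ τ : ℝ) (hκ : 0 < κ) (hτ : 0 < τ) : KapC β Γ κ τ := by
  obtain ⟨n₀, h⟩ := R1S.kap_g_out (Γ := Γ) hβ hκ hτ
  refine ⟨max (192 * ((R1S.cBU β τ + R1S.cEU β Γ + R1S.cO β) * (1 + 52 * β ^ 4)) /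
    (min (κ / 2) 1)) 0, 17, n₀, le_max_right _ _, ?_⟩
  intro n hn q S A δ T ρ Λ e0 B L M HF TF X hA hA2 hA3 he hSm hFn hMt hf hg hX0 hX hG hs
  refine (h n hn q S A δ T ρ Λ e0 B L M HF TF X hA hA2 hA3 he hSm hFn hMt hf hg hX0 hX hG hs).trans
    ?_
  have h1 := hf.Λ1
  have h2 := hf.n0
  have h3 := hf.Tp
  have h4 := hf.N0
  have h5 := hf.ok.x0
  refine mul_le_mul_of_nonneg_right ?_ (by positivity)
  exact mul_le_mul_of_nonneg_right (le_max_left _ _) (by positivity)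

/-- **The K-side.** -/
theorem kstar {β : ℝ} (hβ : 0 < β) : KStar β :=
  kstar_of hβ (fun Γ κ τ _ hκ hτ _ => kapC hβ Γ κ τ hκ hτ) fun Γ hΓ => lamC hβ Γ hΓ

end Vale.Agent.P146.U.H240
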