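import Vale.Agent.P146.U.H240.K7w
import Vale.Agent.P146.H706.D4x

/-!
The choice of the exponents of the deep layers for ONE mean (a positive normalised functional):
the second differences of the deep functionals have the mean at most `1 / (8 u)`,
`u = w² β² n / 2`.
-/

open MeasureTheory ProbabilityTheory

namespace Vale.Agent.P146.U.H240

open Vale.Agent.P157.Lv Vale.Agent.P146.H425 Vale.Agent.P146.R1 Vale.Agent.P146.H325
  Vale.Agent.P146.H332 Vale.Agent.P146.R1C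
open Vale.Agent.P146.H946 (Dz)

set_option linter.unusedSectionVars false

variable {κ : Type} [Fintype κ]

/-- A mean: a positive normalised functional, linear on the functions of exponential growth. -/
structure Mean (Λ : ((κ → ℝ) → ℝ) → ℝ) : Prop where
  sub : ∀ {φ ψ : (κ → ℝ) → ℝ}, EG φ → EG ψ → Λ (fun z => φ z - ψ z) = Λ φ - Λ ψ
  add : ∀ {φ ψ : (κ → ℝ) → ℝ}, EG φ → EG ψ → Λ (fun z => φ z + ψ z) = Λ φ + Λ ψ
  zero : Λ (fun _ => 0) = 0
  nonneg : ∀ {φ : (κ → ℝ) → ℝ}, (∀ z, 0 ≤ φ z) → 0 ≤ Λ φ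
  le : ∀ {φ : (κ → ℝ) → ℝ} {c : ℝ}, EG φ → (∀ z, φ z ≤ c) → Λ φ ≤ c

variable {Λ : ((κ → ℝ) → ℝ) → ℝ}

lemma Mean.sum (hΛ : Mean Λ) (s : Finset ℕ) {φ : ℕ → (κ → ℝ) → ℝ} (hφ : ∀ l ∈ s, EG (φ l)) :
    Λ (fun z => ∑ l ∈ s, φ l z) = ∑ l ∈ s, Λ (φ l) := by
  classical
  induction s using Finset.induction_on with
  | empty =>
    simp only [Finset.sum_empty]
    exact hΛ.zero
  | insert a s ha ih =>
    simp only [Finset.sum_insert ha]
    rw [← ih fun l hl => hφ l (Finset.mem_insert_of_mem hl)]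
    exact hΛ.add (hφ a (Finset.mem_insert_self a s))
      (EG.sum s fun l hl => hφ l (Finset.mem_insert_of_mem hl))

/-- **The choice of the exponents for one mean.** -/
theorem d4w_choice (hΛ : Mean Λ) {ι : Type} [Fintype ι] [Nonempty ι] {Fb : ι → (κ → ℝ) → ℝ}
    {Db : ι → κ → (κ → ℝ) → ℝ} {Bb Lb : ι → ℝ} (hFb : ∀ b, C11 (Fb b) (Db b) (Bb b) (Lb b))
    (σ : ℕ → ℝ) {J N : ℕ} (hN : 0 < N) {hh k0 : ℝ} (hh0 : 0 ≤ hh) (hk0 : 0 < k0)
    (hinc : ∀ b (m : ℕ → ℝ), (∀ j < J, 1 / ((J : ℝ) + 1) ≤ m j) → ∀ l < J, ∀ z,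
      0 ≤ FD (Fb b) (ups m l hh) σ J z - FD (Fb b) m σ J z ∧
        FD (Fb b) (ups m l hh) σ J z - FD (Fb b) m σ J z ≤ k0) :
    ∃ g : ℕ → ℕ, (∀ j < J, 1 ≤ g j ∧ g j ≤ N) ∧
      ∑ l ∈ Finset.range J, (∑ b, Λ (dsec (Fb b) (mgr J hh g) σ J l hh)) / Fintype.card ι ≤
        k0 * ((J : ℝ) / N) := by
  classical
  have hι : (0 : ℝ) < Fintype.card ι := by exact_mod_cast Fintype.card_pos
  have hM : ∀ b g, EG (FD (Fb b) (mgr J hh g) σ J) := fun b g =>
    (c11_FD (σ := σ) (hFb b) J fun j hj => mgr_pos' hh0 g j hj).eg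
  set e : Unit → ℕ → (ℕ → ℕ) → ℝ := fun _ l g => (∑ b, Λ (fun z =>
    FD (Fb b) (mgr J hh (Function.update g l (g l + 1))) σ J z -
      FD (Fb b) (mgr J hh g) σ J z)) / Fintype.card ι / k0 with he
  have hb : ∀ l < J, ∀ g, 0 ≤ e () l g ∧ e () l g ≤ 1 := by
    intro l hl g
    have hi : ∀ b z, 0 ≤ FD (Fb b) (mgr J hh (Function.update g l (g l + 1))) σ J z -
        FD (Fb b) (mgr J hh g) σ J z ∧
        FD (Fb b) (mgr J hh (Function.update g l (g l + 1))) σ J z -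
        FD (Fb b) (mgr J hh g) σ J z ≤ k0 := by
      intro b z
      have := hinc b (mgr J hh g) (fun j hj => mgr_pos hh0 g hj) l hl z
      rwa [ups_mgr] at this
    simp only [he]
    constructor
    · refine div_nonneg (div_nonneg (Finset.sum_nonneg fun b _ => ?_) hι.le) hk0.le
      exact hΛ.nonneg fun z => (hi b z).1
    · rw [div_div, div_le_one (by positivity)]
      calc ∑ b, Λ (fun z => FD (Fb b) (mgr J hh (Function.update g l (g l + 1))) σ J z -
            FD (Fb b) (mgr J hh g) σ J z) ≤ ∑ _b : ι, k0 :=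
            Finset.sum_le_sum fun b _ => hΛ.le ((hM b _).sub (hM b _)) fun z => (hi b z).2
        _ = Fintype.card ι * k0 := by
            rw [Finset.sum_const, Finset.card_univ, nsmul_eq_mul]
  obtain ⟨g, hg, -, hsum⟩ := D4.grid_choice hN {()} e fun p _ l hl g _ => by
    have h1 := (hb l hl (Function.update g l N)).2
    have h2 := (hb l hl (Function.update g l 0)).1
    linarith
  refine ⟨g, hg, ?_⟩
  rw [Finset.sum_singleton, Finset.card_singleton, Nat.cast_one, one_mul] at hsum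
  have key : ∀ l ∈ Finset.range J, (∑ b, Λ (dsec (Fb b) (mgr J hh g) σ J l hh)) /
      Fintype.card ι = k0 * (e () l g - e () l (Function.update g l (g l - 1))) := by
    intro l hl
    have hgl := (hg l (Finset.mem_range.1 hl)).1
    have e1 : Function.update (Function.update g l (g l - 1)) l
        (Function.update g l (g l - 1) l + 1) = g := by
      rw [Function.update_self, Function.update_idem, Nat.sub_add_cancel hgl,
        Function.update_eq_self]
    simp only [he]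
    rw [e1, ← sub_div, ← sub_div, ← Finset.sum_sub_distrib, mul_div_cancel₀ _ hk0.ne']
    congr 1
    refine Finset.sum_congr rfl fun b _ => ?_
    rw [← hΛ.sub ((hM b _).sub (hM b _)) ((hM b _).sub (hM b _))]
    congr 1
    funext z
    unfold dsec
    rw [ups_mgr, ups_mgr' J hh hgl]
    ring
  calc ∑ l ∈ Finset.range J, (∑ b, Λ (dsec (Fb b) (mgr J hh g) σ J l hh)) / Fintype.card ι
      = k0 * ∑ l ∈ Finset.range J, (e () l g - e () l (Function.update g l (g l - 1))) := by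
        rw [Finset.mul_sum]
        exact Finset.sum_congr rfl fun l hl => key l hl
    _ ≤ _ := mul_le_mul_of_nonneg_left hsum hk0.le

/-- The mean second difference of a family of systems. -/
noncomputable def DSw (β w : ℝ) (n J : ℕ) {Y : Type} [Fintype Y] (S : Pair n → Y → ℝ)
    (m : ℕ → ℝ) (h : ℝ) (z : Pair n → ℝ) : ℝ :=
  ∑ l ∈ Finset.range J, dsec (lz (kk n β) S) m (fun _ => w) J l h z

/-- **The choice of the exponents of the deep layers of the SK model, one mean.** -/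
theorem d4w {n : ℕ} (hn : 0 < n) {β w : ℝ} (J : ℕ) (hw : w ≠ 0)
    (hu : 1 ≤ w ^ 2 * (β ^ 2 / 2 * n)) {Λ : ((Pair n → ℝ) → ℝ) → ℝ} (hΛ : Mean Λ)
    {ι Y : Type} [Fintype ι] [Nonempty ι] [Fintype Y] [Nonempty Y] (Sx : ι → Pair n → Y → ℝ)
    (hSx : ∀ b e σ, |Sx b e σ| ≤ 1) :
    ∃ (m : ℕ → ℝ) (h : ℝ), Lw β w n J m h ∧
      (∑ b, Λ (DSw β w n J (Sx b) m h)) / Fintype.card ι ≤
        1 / (8 * (w ^ 2 * (β ^ 2 / 2 * n))) := by
  classical
  set u := w ^ 2 * (β ^ 2 / 2 * n) with hudef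
  obtain ⟨hN0, huN, hh0, hhN, hk1, hk2⟩ := mesh_num (J := J) hu
  set N := ⌈u⌉₊ with hN
  set h := 1 / (4 * ((J : ℝ) + 1) * (N + 1)) with hh
  set k0 := h / 2 * u with hk0
  have hJ : (0 : ℝ) < (J : ℝ) + 1 := by positivity
  have hJ0 : (0 : ℝ) ≤ J := Nat.cast_nonneg J
  have hk0p : 0 < k0 := lt_of_lt_of_le (by positivity) hk1
  have hk01 : k0 ≤ 1 := hk2.trans (by
    rw [div_le_one (by positivity)]
    linarith)
  have ha0 : 0 < 1 / ((J : ℝ) + 1) := by positivity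
  have ha1 : 1 / ((J : ℝ) + 1) ≤ 1 := by
    rw [div_le_one hJ]
    linarith
  have hc : ∀ b, C11 (lz (kk n β) (Sx b)) (Dz (kk n β) (Sx b)) _ _ := fun b =>
    c11_lz (kk n β) (Sx b)
  have hcv : ∀ b, Cv (lz (kk n β) (Sx b)) := fun b => cv_lz _ _
  have hbd : ∀ b z, ∑ e, Dz (kk n β) (Sx b) e z ^ 2 ≤ β ^ 2 / 2 * n := fun b z =>
    sum_Dz_le hn β (hSx b) z
  obtain ⟨g, hg, hsum⟩ := d4w_choice hΛ hc (fun _ => w) hN0 hh0.le hk0p
    (fun b m hm l hl z => by
      have := H785.ups_bd (σ := fun _ => w) (hc b) (hcv b)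
        (fun j hj => ha0.trans_le (hm j hj)) hl hh0.le (hbd b) hk01 ha0 ha1
        (fun j _ hj => hm j hj) z
      exact this)
  have hbox : ∀ l < J, ((J : ℝ) - l) / (J + 1) + h ≤ mgr J h g l ∧
      mgr J h g l + h ≤ ((J : ℝ) - l) / (J + 1) + 1 / (4 * ((J : ℝ) + 1)) :=
    fun l hl => mgr_box hh0.le hhN (hg l hl)
  refine ⟨mgr J h g, h, ⟨hw, hh0, hk1, hk2, hbox⟩, ?_⟩
  have hhl : ∀ j < J, |h| < mgr J h g j := by
    intro j hj
    rw [abs_of_pos hh0]
    have h1 := (hbox j hj).1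
    have h2 : 0 < ((J : ℝ) - j) / (J + 1) := by
      have : (j : ℝ) < J := by exact_mod_cast hj
      have : 0 < (J : ℝ) - j := by linarith
      positivity
    linarith
  have hdg : ∀ b l, EG (dsec (lz (kk n β) (Sx b)) (mgr J h g) (fun _ => w) J l h) := fun b l =>
    eg_dsec (hc b) hhl
  have e1 : (∑ b, Λ (DSw β w n J (Sx b) (mgr J h g) h)) / Fintype.card ι =
      ∑ l ∈ Finset.range J, (∑ b, Λ (dsec (lz (kk n β) (Sx b)) (mgr J h g) (fun _ => w) J l h)) /
        Fintype.card ι := by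
    rw [← Finset.sum_div, Finset.sum_comm]
    congr 1
    refine Finset.sum_congr rfl fun b _ => ?_
    exact hΛ.sum (Finset.range J) fun l _ => hdg b l
  rw [e1]
  refine hsum.trans ?_
  have hNp : (0 : ℝ) < N := by exact_mod_cast hN0
  have hup : 0 < u := by linarith
  have h3 : k0 * (J : ℝ) ≤ 1 / 8 := by
    calc k0 * (J : ℝ) ≤ 1 / (8 * ((J : ℝ) + 1)) * (J + 1) := by
          have := mul_le_mul_of_nonneg_right hk2 hJ0
          have h4 : 0 ≤ 1 / (8 * ((J : ℝ) + 1)) := by positivity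
          nlinarith
      _ = 1 / 8 := by field_simp
  calc k0 * ((J : ℝ) / N) = k0 * J / N := by ring
    _ ≤ (1 / 8) / N := div_le_div_of_nonneg_right h3 hNp.le
    _ ≤ (1 / 8) / u := div_le_div_of_nonneg_left (by norm_num) hup huN
    _ = 1 / (8 * u) := by rw [div_div]

section bound

variable {β w : ℝ} {n J : ℕ} {ι Y : Type} [Fintype ι] [Fintype Y] [Nonempty Y]
  {Sx : ι → Pair n → Y → ℝ} {m : ℕ → ℝ} {h : ℝ}

/-- the second difference is between `0` and `k0` -/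
theorem Lw.dsec_bd (H : Lw β w n J m h) (hn : 0 < n) {S : Pair n → Y → ℝ}
    (hS : ∀ e σ, |S e σ| ≤ 1) {l : ℕ} (hl : l < J) (z : Pair n → ℝ) :
    0 ≤ dsec (lz (kk n β) S) m (fun _ => w) J l h z ∧
      dsec (lz (kk n β) S) m (fun _ => w) J l h z ≤ h / 2 * (w ^ 2 * (β ^ 2 / 2 * n)) := by
  have hJ : (0 : ℝ) < (J : ℝ) + 1 := by positivity
  have hJ0 : (0 : ℝ) ≤ J := Nat.cast_nonneg J
  have ha0 : 0 < 1 / ((J : ℝ) + 1) := by positivity
  have ha1 : 1 / ((J : ℝ) + 1) ≤ 1 := by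
    rw [div_le_one hJ]
    linarith
  have hk : h / 2 * (w ^ 2 * (β ^ 2 / 2 * n)) ≤ 1 := H.k0u.trans (by
    rw [div_le_one (by positivity)]
    linarith)
  have hc := c11_lz (kk n β) S
  have hcv : Cv (lz (kk n β) S) := cv_lz _ _
  have hbd := sum_Dz_le hn β hS
  have hbase : ∀ j < J, (0 : ℝ) < ((J : ℝ) - j) / (J + 1) := by
    intro j hj
    have : (j : ℝ) < J := by exact_mod_cast hj
    have : 0 < (J : ℝ) - j := by linarith
    positivity
  have hbase1 : ∀ j < J, 1 / ((J : ℝ) + 1) ≤ ((J : ℝ) - j) / (J + 1) := by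
    intro j hj
    have h1 : (j : ℝ) + 1 ≤ J := by exact_mod_cast hj
    gcongr
    linarith
  have hh0 := H.h0
  have h0 := H785.dsec_nonneg (σ := fun _ => w) hc hcv (fun j hj => H.pos j hj) hl hh0.le
    (by linarith [(H.box l hl).1, hbase l hl]) hbd hk ha0 ha1 (fun j _ hj => H.ge j hj) z
  refine ⟨h0, ?_⟩
  have u1 := (H785.ups_bd (σ := fun _ => w) hc hcv (fun j hj => H.pos j hj) hl hh0.le
    hbd hk ha0 ha1 (fun j _ hj => H.ge j hj) z).2
  -- the lower exponent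
  set m' := ups m l (-h) with hm'
  have hge' : ∀ j < J, 1 / ((J : ℝ) + 1) ≤ m' j := by
    intro j hj
    rw [hm']
    unfold ups
    by_cases hjl : j = l
    · subst hjl
      rw [Function.update_self]
      linarith [(H.box j hj).1, hbase1 j hj]
    · rw [Function.update_of_ne hjl]
      exact H.ge j hj
  have hback : ups m' l h = m := by
    rw [hm']
    unfold ups
    rw [Function.update_self, Function.update_idem]
    have : m l + -h + h = m l := by ring
    rw [this, Function.update_eq_self]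
  have u2 := (H785.ups_bd (σ := fun _ => w) hc hcv
    (fun j hj => ha0.trans_le (hge' j hj)) hl hh0.le hbd hk ha0 ha1
    (fun j _ hj => hge' j hj) z).1
  rw [hback] at u2
  unfold dsec
  linarith

lemma Lw.DS_nonneg (H : Lw β w n J m h) (hn : 0 < n) {S : Pair n → Y → ℝ}
    (hS : ∀ e σ, |S e σ| ≤ 1) (z : Pair n → ℝ) : 0 ≤ DSw β w n J S m h z :=
  Finset.sum_nonneg fun _ hl => (H.dsec_bd hn hS (Finset.mem_range.1 hl) z).1

lemma Lw.DS_le (H : Lw β w n J m h) (hn : 0 < n) {S : Pair n → Y → ℝ}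
    (hS : ∀ e σ, |S e σ| ≤ 1) (z : Pair n → ℝ) : DSw β w n J S m h z ≤ 1 := by
  have hJ : (0 : ℝ) < (J : ℝ) + 1 := by positivity
  have hJ0 : (0 : ℝ) ≤ J := Nat.cast_nonneg J
  calc DSw β w n J S m h z
      ≤ ∑ _l ∈ Finset.range J, h / 2 * (w ^ 2 * (β ^ 2 / 2 * n)) :=
        Finset.sum_le_sum fun _ hl => (H.dsec_bd hn hS (Finset.mem_range.1 hl) z).2
    _ = J * (h / 2 * (w ^ 2 * (β ^ 2 / 2 * n))) := by
        rw [Finset.sum_const, Finset.card_range, nsmul_eq_mul]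
    _ ≤ J * (1 / (8 * ((J : ℝ) + 1))) := mul_le_mul_of_nonneg_left H.k0u hJ0
    _ ≤ 1 := by
        rw [mul_one_div, div_le_one (by positivity)]
        linarith

lemma Lw.eg_DS (H : Lw β w n J m h) (S : Pair n → Y → ℝ) : EG (DSw β w n J S m h) := by
  refine EG.sum _ fun l _ => eg_dsec (c11_lz (kk n β) S) fun j hj => ?_
  rw [abs_of_pos H.h0]
  have h1 := (H.box j hj).1
  have : (j : ℝ) < J := by exact_mod_cast hj
  have : 0 < (J : ℝ) - j := by linarith
  have : 0 < ((J : ℝ) - j) / (J + 1) := by positivity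
  linarith

end bound

/-- the cost of the layers -/
lemma Lw.cost {β w : ℝ} {n J : ℕ} {m : ℕ → ℝ} {h : ℝ} (H : Lw β w n J m h) (hn : 0 < n)
    (z : Pair n → ℝ) : lz (kk n β) SkS z ≤ Fz n β m (fun _ => w) J z ∧
      Fz n β m (fun _ => w) J z ≤ lz (kk n β) SkS z + J / 2 * (w ^ 2 * (β ^ 2 / 2 * n)) := by
  have := FD_lz (σ := fun _ => w) hn β H.pos H.le z
  refine ⟨this.1, this.2.trans (le_of_eq ?_)⟩
  rw [Finset.sum_const, Finset.card_range, nsmul_eq_mul]
  unfold kk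
  ring

end Vale.Agent.P146.U.H240
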