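import Vale.Agent.P146.H401.K7
import Vale.Agent.P146.H95.KabF
import Vale.Agent.P146.H706.D4e

/-!
The deep layers with constants. `J` layers of the standard deviation `w` (`w² = 2 / (β² n a)` in
the applications), the numbers of the choice of the exponents, and row (K7) for these layers.
-/

open MeasureTheory ProbabilityTheory

namespace Vale.Agent.P146.U.H240

open Vale.Agent.P157.Lv Vale.Agent.P146.H425 Vale.Agent.P146.R1 Vale.Agent.P146.H325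
  Vale.Agent.P146.H332 Vale.Agent.P146.R1C Vale.Agent.P146.H401
open Vale.Agent.P146.H722 (nuv)
open Vale.Agent.P146.H327 (Sb)

set_option linter.unusedSectionVars false

/-- The numbers of the layers: `J` layers of the standard deviation `w`, exponents `m`, mesh `h`. -/
structure Lw (β w : ℝ) (n J : ℕ) (m : ℕ → ℝ) (h : ℝ) : Prop where
  w0 : w ≠ 0
  h0 : 0 < h
  k0l : 1 / (24 * ((J : ℝ) + 1)) ≤ h / 2 * (w ^ 2 * (β ^ 2 / 2 * n))
  k0u : h / 2 * (w ^ 2 * (β ^ 2 / 2 * n)) ≤ 1 / (8 * ((J : ℝ) + 1))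
  box : ∀ l < J, ((J : ℝ) - l) / (J + 1) + h ≤ m l ∧
    m l + h ≤ ((J : ℝ) - l) / (J + 1) + 1 / (4 * ((J : ℝ) + 1))

section use

variable {β w x h : ℝ} {n J : ℕ} {m : ℕ → ℝ}

lemma Lw.ge (H : Lw β w n J m h) (l : ℕ) (hl : l < J) : 1 / ((J : ℝ) + 1) ≤ m l := by
  have h1 : (l : ℝ) + 1 ≤ J := by exact_mod_cast hl
  have h2 : 1 / ((J : ℝ) + 1) ≤ ((J : ℝ) - l) / (J + 1) := by
    gcongr
    linarith
  have := (H.box l hl).1
  linarith [H.h0]

lemma Lw.le (H : Lw β w n J m h) (l : ℕ) (hl : l < J) : m l ≤ 1 := by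
  have h1 := (H.box l hl).2
  have h2 : ((J : ℝ) - l) / (J + 1) + 1 / (4 * ((J : ℝ) + 1)) ≤ 1 := by
    rw [div_add_div _ _ (by positivity) (by positivity), div_le_one (by positivity)]
    have : (0 : ℝ) ≤ l := Nat.cast_nonneg l
    have hJ : (0 : ℝ) < (J : ℝ) + 1 := by positivity
    nlinarith [mul_nonneg this hJ.le]
  linarith [H.h0]

lemma Lw.pos (H : Lw β w n J m h) (l : ℕ) (hl : l < J) : 0 < m l :=
  (by positivity : 0 < 1 / ((J : ℝ) + 1)).trans_le (H.ge l hl)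

lemma Lw.gap (H : Lw β w n J m h) (l : ℕ) (hl : l + 1 < J) :
    3 / (4 * ((J : ℝ) + 1)) ≤ m l - m (l + 1) := by
  have h1 := H.box l (by omega)
  have h2 := H.box (l + 1) hl
  push_cast at h2
  have hJ : (0 : ℝ) < (J : ℝ) + 1 := by positivity
  have e : ((J : ℝ) - l) / (J + 1) - ((J : ℝ) - (l + 1)) / (J + 1) = 4 / (4 * ((J : ℝ) + 1)) := by
    field_simp
    ring
  have e3 : 3 / (4 * ((J : ℝ) + 1)) = 4 / (4 * ((J : ℝ) + 1)) - 1 / (4 * ((J : ℝ) + 1)) := by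
    field_simp
    norm_num
  have := H.h0
  rw [e3]
  linarith [h1.1, h1.2, h2.1, h2.2]

lemma Lw.exs (H : Lw β w n J m h) (hx : 0 < x) (hxJ : x ≤ 1 / ((J : ℝ) + 1)) : Exs m J x where
  x0 := hx
  x1 := hxJ.trans (by
    rw [div_le_one (by positivity)]
    have : (0 : ℝ) ≤ J := Nat.cast_nonneg J
    linarith)
  ge := fun i hi => hxJ.trans (H.ge i hi)
  le := H.le
  anti := fun i hi => by
    have h1 := H.gap i hi
    have h2 : (0 : ℝ) < 3 / (4 * ((J : ℝ) + 1)) := by positivity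
    linarith

lemma Lw.w2 (H : Lw β w n J m h) : 0 < w ^ 2 := by
  have := H.w0
  positivity

end use

lemma kk_two {n : ℕ} (hn : 0 < n) (β : ℝ) : kk n β ^ 2 * n = β ^ 2 := by
  have h1 : (0 : ℝ) < n := Nat.cast_pos.2 hn
  unfold kk
  rw [div_pow, Real.sq_sqrt h1.le, div_mul_cancel₀ _ h1.ne']

/-- **(K7) for `J` layers of any size.** -/
theorem k7w {β : ℝ} (hβ : 0 < β) : ∃ (J : ℕ) (η c0 C7 : ℝ), 1 ≤ J ∧ 0 < η ∧ 0 < c0 ∧ 0 < C7 ∧
    ∀ {n : ℕ}, 0 < n → 0 < kk n β → ∀ {m : ℕ → ℝ} {w h x : ℝ}, Exs m J x → J * w ^ 2 ≤ η →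
    Lw β w n J m h → ∀ {b : Fin n} {v : Fin n → ℝ} {lam : ℝ}, ∑ j, v j ^ 2 = 1 → v b = 0 →
    0 < lam → ∀ z : Pair n → ℝ,
    AvP 1 (row b) (fun u => iteratedDeriv 4
      (fun r : ℝ => Fz n β m (fun _ => w) J (u + r • nuv b v)) 0) z ≤
    kk n β ^ 4 * (-c0 * lam ^ 2 + C7 * (AvP 1 (row b) (fun u =>
      TD (lz (kk n β) SkS) m (fun _ => w) (H325.av (kk n β) SkS (gv v lam)) J u) z +
      lam ^ 2 * (1 / (w ^ 2 * lam) + ∑ l ∈ Finset.range J,
        dsec (lz (kk n β) (Sb b)) m (fun _ => w) J l h z))) := by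
  obtain ⟨J, η, c0, C7, hJ, hη, hc0, hC7, hmain⟩ := k7 hβ (H95.kab_sk hβ)
  refine ⟨J, η, c0, C7, hJ, hη, hc0, hC7, fun {n} hn hk m w h x hE hw H b v lam hv hvb hlam z => ?_⟩
  have hkn := kk_two hn β
  have e1 : h / 4 * w ^ 2 * (kk n β ^ 2 * (n : ℝ) ^ 2) = h / 2 * (w ^ 2 * (β ^ 2 / 2 * n)) := by
    rw [← hkn]
    ring
  refine hmain hn hk hkn hE H.w0 hw H.h0 H.box (by rw [e1]; exact H.k0l) ?_ hv hvb hlam z
  rw [e1]
  refine H.k0u.trans ?_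
  rw [div_le_div_iff₀ (by positivity) (by norm_num)]
  have : (0 : ℝ) ≤ J := Nat.cast_nonneg J
  linarith

end Vale.Agent.P146.U.H240
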