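import Vale.Agent.P146.U.H240.D4w
import Vale.Agent.P146.U.H425_R1Def
import Vale.Agent.P146.H706.D4b

/-!
Comparison of the laws `P_{θ,η}` of two functionals which differ by a bounded function, the
reduction of a conditional expectation at the time `s` to the time `1`, and the mean of the
endpoint as a `Mean`.
-/

open MeasureTheory ProbabilityTheory

namespace Vale.Agent.P146.U.H240

open Vale.Agent.P157.Lv Vale.Agent.P146.H425
open Vale.Agent.P146.H332 hiding Et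
open Vale.Agent.P146.R1 hiding dn Eu Et
open Vale.Agent.P146.H785 (Ax)
open Vale.Agent.P146.U.R1 (dn Eu Et)

set_option linter.unusedSectionVars false

variable {κ : Type} [Fintype κ] {F G : (κ → ℝ) → ℝ} {D D' : κ → (κ → ℝ) → ℝ}
  {B B' L L' x θ η t0 t1 s c : ℝ}

/-- the densities -/
lemma dn_comp (h : C11 F D B L) (h' : C11 G D' B' L') (hx : 0 < x) (hθ : 0 ≤ θ) (hη : 0 ≤ η)
    (h0 : ∀ z, F z ≤ G z) (h1 : ∀ z, G z ≤ F z + c) (t0 t1 s : ℝ) (z0 z1 z2 : κ → ℝ) :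
    Real.exp (-((θ + η) * x * c)) * dn x θ η t0 t1 s F z0 z1 z2 ≤ dn x θ η t0 t1 s G z0 z1 z2 ∧
      dn x θ η t0 t1 s G z0 z1 z2 ≤
        Real.exp ((1 + θ) * x * c) * dn x θ η t0 t1 s F z0 z1 z2 := by
  obtain ⟨a0, a1⟩ := uu_comp h h' hx h0 h1 t0 z0
  obtain ⟨b0, b1⟩ := uu_comp h h' hx h0 h1 t1 z1
  obtain ⟨c0, c1⟩ := uu_comp h h' hx h0 h1 s z2
  have hθx : 0 ≤ θ * x := mul_nonneg hθ hx.le
  have hηx : 0 ≤ η * x := mul_nonneg hη hx.le
  unfold dn xi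
  rw [← Real.exp_add, ← Real.exp_add]
  constructor
  · apply Real.exp_le_exp.2
    nlinarith [mul_le_mul_of_nonneg_left c0 hx.le, mul_le_mul_of_nonneg_left b0 hθx,
      mul_le_mul_of_nonneg_left a1 hθx, mul_le_mul_of_nonneg_left a1 hηx]
  · apply Real.exp_le_exp.2
    nlinarith [mul_le_mul_of_nonneg_left c1 hx.le, mul_le_mul_of_nonneg_left b1 hθx,
      mul_le_mul_of_nonneg_left a0 hθx, mul_le_mul_of_nonneg_left a0 hηx]

/-- **Comparison of the laws.** -/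
theorem Et_comp {Ψ : (κ → ℝ) → (κ → ℝ) → (κ → ℝ) → ℝ} (h : C11 F D B L)
    (h' : C11 G D' B' L') (hx : 0 < x) (hθ : 0 ≤ θ) (hη : 0 ≤ η) (h0 : ∀ z, F z ≤ G z)
    (h1 : ∀ z, G z ≤ F z + c) (hΨ : E3 Ψ) (hΨ0 : ∀ z0 z1 z2, 0 ≤ Ψ z0 z1 z2) :
    Et x θ η t0 t1 s G Ψ ≤ Real.exp ((1 + 2 * θ + η) * x * c) * Et x θ η t0 t1 s F Ψ := by
  have k1 : Eu x θ η t0 t1 s G Ψ ≤ Real.exp ((1 + θ) * x * c) * Eu x θ η t0 t1 s F Ψ := by
    unfold Eu
    rw [← integral_const_mul]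
    refine integral_mono (R1.eg_Eu h' hx hΨ θ η t0 t1 s).integrable
      ((R1.eg_Eu h hx hΨ θ η t0 t1 s).const_mul _).integrable fun w => ?_
    simp only
    rw [← mul_assoc]
    exact mul_le_mul_of_nonneg_right (dn_comp h h' hx hθ hη h0 h1 _ _ _ _ _ _).2 (hΨ0 _ _ _)
  have k2 : Real.exp (-((θ + η) * x * c)) * Eu x θ η t0 t1 s F (fun _ _ _ => 1) ≤
      Eu x θ η t0 t1 s G (fun _ _ _ => 1) := by
    unfold Eu
    rw [← integral_const_mul]
    refine integral_mono ((R1.eg_Eu h hx (E3.const 1) θ η t0 t1 s).const_mul _).integrable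
      (R1.eg_Eu h' hx (E3.const 1) θ η t0 t1 s).integrable fun w => ?_
    simp only
    rw [← mul_assoc]
    exact mul_le_mul_of_nonneg_right (dn_comp h h' hx hθ hη h0 h1 _ _ _ _ _ _).1 zero_le_one
  have p1 := R1.Eu_one_pos (θ := θ) (η := η) (t0 := t0) (t1 := t1) (s := s) h hx
  have p2 := R1.Eu_one_pos (θ := θ) (η := η) (t0 := t0) (t1 := t1) (s := s) h' hx
  have p3 : 0 ≤ Eu x θ η t0 t1 s F Ψ := R1.Eu_nonneg hΨ0
  unfold Et
  rw [div_le_iff₀ p2]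
  have e : Real.exp ((1 + θ) * x * c) =
      Real.exp ((1 + 2 * θ + η) * x * c) * Real.exp (-((θ + η) * x * c)) := by
    rw [← Real.exp_add]
    congr 1
    ring
  calc Eu x θ η t0 t1 s G Ψ ≤ Real.exp ((1 + θ) * x * c) * Eu x θ η t0 t1 s F Ψ := k1
    _ = Real.exp ((1 + 2 * θ + η) * x * c) *
        (Eu x θ η t0 t1 s F Ψ / Eu x θ η t0 t1 s F (fun _ _ _ => 1)) *
        (Real.exp (-((θ + η) * x * c)) * Eu x θ η t0 t1 s F (fun _ _ _ => 1)) := by
          rw [e]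
          field_simp
    _ ≤ _ := mul_le_mul_of_nonneg_left k2 (by positivity)

/-- **The endpoint.** -/
theorem Eu_end (h : C11 F D B L) (hx : 0 < x) {φ : (κ → ℝ) → ℝ} (hφ : EG φ) (h0 : t1 ≤ s)
    (hs : s ≤ 1) :
    Eu x θ η t0 t1 s F (fun _ _ z => Ax x (√(1 - s)) F φ z) =
      Eu x θ η t0 t1 1 F (fun _ _ z => φ z) := by
  have hA : EG (Ax x (√(1 - s)) F φ) := eg_Ax h hφ x _
  rw [R1.Eu_iter h hx (E3.of2 hA), R1.Eu_iter h hx (E3.of2 hφ)]
  refine integral_congr_ae (Filter.Eventually.of_forall fun y0 => ?_)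
  refine integral_congr_ae (Filter.Eventually.of_forall fun y1 => ?_)
  simp only
  set z1 := √t0 • y0 + √(t1 - t0) • y1 with hz1
  have hf : EG fun z : κ → ℝ => dn x θ η t0 t1 1 F (√t0 • y0) z1 z * φ z :=
    eg_elim (eg_elim ((R1.e3_dn h hx θ η t0 t1 1).mul (E3.of2 hφ)) (√t0 • y0)) z1
  have key := gI_rot hf (a := √(s - t1)) (b := √(1 - s)) (c := √(1 - t1)) (by
    rw [Real.sq_sqrt (by linarith), Real.sq_sqrt (by linarith), Real.sq_sqrt (by linarith)]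
    ring) z1
  refine Eq.trans ?_ key
  refine integral_congr_ae (Filter.Eventually.of_forall fun y2 => ?_)
  simp only
  unfold dn
  rw [add_sub_assoc, Real.exp_add, mul_comm (Real.exp (x * _)), mul_assoc, Ax_mul h hx,
    ← integral_const_mul]
  refine integral_congr_ae (Filter.Eventually.of_forall fun y3 => ?_)
  simp only
  rw [uu_one hx, add_sub_assoc, Real.exp_add]
  ring

theorem Et_end (h : C11 F D B L) (hx : 0 < x) {φ : (κ → ℝ) → ℝ} (hφ : EG φ) (h0 : t1 ≤ s)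
    (hs : s ≤ 1) :
    Et x θ η t0 t1 s F (fun _ _ z => Ax x (√(1 - s)) F φ z) =
      Et x θ η t0 t1 1 F (fun _ _ z => φ z) := by
  unfold Et
  rw [Eu_end h hx hφ h0 hs, R1.Eu_one_eq h hx h0 hs, R1.Eu_one_eq h hx (h0.trans hs) le_rfl]

/-- The mean of the endpoint under `P_{θ,η}` is a mean. -/
lemma mean_end (h : C11 F D B L) (hx : 0 < x) (θ η t0 t1 : ℝ) :
    Mean fun φ : (κ → ℝ) → ℝ => Et x θ η t0 t1 1 F (fun _ _ z => φ z) where
  sub := fun hφ hψ => R1.Et_sub h hx (E3.of2 hφ) (E3.of2 hψ)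
  add := fun hφ hψ => R1.Et_add h hx (E3.of2 hφ) (E3.of2 hψ)
  zero := R1.Et_const h hx 0
  nonneg := fun h0 => R1.Et_nonneg h hx fun _ _ z => h0 z
  le := fun hφ h0 => (R1.Et_mono h hx (E3.of2 hφ) (E3.const _) fun _ _ z => h0 z).trans_eq
    (R1.Et_const h hx _)

/-- **The second differences under the law of the dressed functional, seen from the time `s`.** -/
theorem law_w {n J : ℕ} (hn : 0 < n) {β w a h : ℝ} {m : ℕ → ℝ} (H : Lw β w n J m h)
    {Y : Type} [Fintype Y] [Nonempty Y] {S : Pair n → Y → ℝ} (hS : ∀ e σ, |S e σ| ≤ 1)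
    (ha : 0 < a) (hθ : 0 ≤ θ) (hη : 0 ≤ η) (h0 : t1 ≤ s) (hs : s ≤ 1) :
    Et a θ η t0 t1 s (Fz n β m (fun _ => w) J) (fun _ _ z =>
      Ax a (√(1 - s)) (Fz n β m (fun _ => w) J) (DSw β w n J S m h) z) ≤
      Real.exp ((1 + 2 * θ + η) * a * (J / 2 * (w ^ 2 * (β ^ 2 / 2 * n)))) *
        Et a θ η t0 t1 1 (lz (R1C.kk n β) H325.SkS) (fun _ _ z => DSw β w n J S m h z) := by
  have hV := c11_FD (σ := fun _ => w) (c11_lz (R1C.kk n β) (H325.SkS (n := n))) J H.pos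
  rw [Et_end hV ha (H.eg_DS S) h0 hs]
  exact Et_comp (c11_lz (R1C.kk n β) (H325.SkS (n := n))) hV ha hθ hη (fun z => (H.cost hn z).1)
    (fun z => (H.cost hn z).2) (E3.of2 (H.eg_DS S)) fun _ _ z => H.DS_nonneg hn hS z

end Vale.Agent.P146.U.H240
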