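import Vale.Agent.P146.U.H240.Tr2
import Vale.Agent.P146.U.H240.Lc

/-!
The choice of the deep layers at a regular datum: `w² β² n / 2 = 1 / a`, `a` the window exponent.
-/

open MeasureTheory ProbabilityTheory

namespace Vale.Agent.P146.U.H240

open Vale.Agent.P157.Lv Vale.Agent.P146.H425 Vale.Agent.P146.H325 Vale.Agent.P146.U
  Vale.Agent.P146.U.H979
open Vale.Agent.P146.H332 hiding Et
open Vale.Agent.P146.R1 hiding dn Eu Et
open Vale.Agent.P146.H785 (Ax)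
open Vale.Agent.P146.U.R1 (dn Eu Et)
open Vale.Agent.P146.H327 (Sb)

set_option linter.unusedSectionVars false

lemma abs_Sb' {n : ℕ} (b : Fin n) (e : Pair n) (σ : Fin n → ℤˣ) : |Sb b e σ| ≤ 1 := by
  unfold Sb
  split_ifs
  · simp
  · exact (H325.abs_pr e.1.1 e.1.2 σ).le

/-- the size of the layers -/
noncomputable def wl (β a : ℝ) (n : ℕ) : ℝ := √(2 / (β ^ 2 * n * a))

lemma wl_sq {β a : ℝ} {n : ℕ} (hβ : 0 < β) (ha : 0 < a) (hn : 0 < n) :
    wl β a n ^ 2 * (β ^ 2 / 2 * n) = 1 / a := by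
  have hnp : (0 : ℝ) < n := by exact_mod_cast hn
  unfold wl
  rw [Real.sq_sqrt (by positivity)]
  field_simp

lemma wl_ne {β a : ℝ} {n : ℕ} (hβ : 0 < β) (ha : 0 < a) (hn : 0 < n) : wl β a n ≠ 0 := by
  have hnp : (0 : ℝ) < n := by exact_mod_cast hn
  unfold wl
  exact (Real.sqrt_pos.2 (by positivity)).ne'

/-- **The choice of the deep layers at a regular datum.** -/
theorem k_choice {β : ℝ} (hβ : 0 < β) (J : ℕ) {n : ℕ} (hn : 0 < n) {x a T ρ Λ N K θ : ℝ}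
    (r : KReg x a T ρ Λ N K (lz (R1C.kk n β) (SkS (n := n)))) (ha1 : a ≤ 1) (hN : 150 ≤ N)
    (hK : 6 ≤ K) (hJ : 500 * J ≤ a ^ 2 * ρ * T) (hθ : 0 ≤ θ) (hθ1 : θ ≤ 1 / 2) :
    ∃ (m : ℕ → ℝ) (h : ℝ), Lw β (wl β a n) n J m h ∧
      RegU x a 1 T (ρ / 2) (2 * Λ + 1) (Fz n β m (fun _ => wl β a n) J) ∧
      PP x (N * a) √(1 - K * T) √(K * T) (Fz n β m (fun _ => wl β a n) J) -
          PP x a √(1 - T) √T (Fz n β m (fun _ => wl β a n) J) ≤
        N * K / 24576 * (a * (ρ / 2) * T) ∧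
      ∀ s, 1 - T / 2 ≤ s → s ≤ 1 → ∑ b : Fin n, Et a θ (1 - x / a) (1 - T) (1 - T / 2) s
        (Fz n β m (fun _ => wl β a n) J) (fun _ _ z => Ax a (√(1 - s))
          (Fz n β m (fun _ => wl β a n) J) (DSw β (wl β a n) n J (Sb b) m h) z) ≤
        Real.exp (2 * J) * (a / 8) * n := by
  have hx := r.x0
  have ha := r.a0
  have hT := r.T0
  have hρ := r.ρ0
  have hη0 := r.η0
  have hη1 := r.η1
  have hnp : (0 : ℝ) < n := by exact_mod_cast hn
  have hw := wl_sq hβ ha hn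
  have hw0 := wl_ne hβ ha hn
  have hJ0 : (0 : ℝ) ≤ J := Nat.cast_nonneg J
  have : Nonempty (Fin n) := ⟨⟨0, hn⟩⟩
  have hF := c11_lz (R1C.kk n β) (SkS (n := n))
  have hu1 : 1 ≤ wl β a n ^ 2 * (β ^ 2 / 2 * n) := by
    rw [hw, le_div_iff₀ ha]
    linarith
  obtain ⟨m, h, H, hD⟩ := d4w (β := β) (ι := Fin n) (Y := Fin n → ℤˣ) hn J hw0 hu1
    (mean_end hF ha θ (1 - x / a) (1 - T) (1 - T / 2)) (Sb (n := n)) abs_Sb'
  have hV := c11_FD (σ := fun _ => wl β a n) hF J H.pos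
  have hc0 : ∀ z, lz (R1C.kk n β) SkS z ≤ Fz n β m (fun _ => wl β a n) J z := fun z =>
    (H.cost hn z).1
  have hc1 : ∀ z, Fz n β m (fun _ => wl β a n) J z ≤ lz (R1C.kk n β) SkS z + J / (2 * a) := by
    intro z
    have := (H.cost hn z).2
    rw [hw] at this
    refine this.trans (le_of_eq ?_)
    field_simp
  have hc : 1000 * (J / (2 * a)) ≤ a * ρ * T := by
    have e : 1000 * ((J : ℝ) / (2 * a)) = 500 * J / a := by
      field_simp
      ring
    rw [e, div_le_iff₀ ha]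
    linarith
  obtain ⟨t1, t2⟩ := r.transfer hF hV hc0 hc1 hN hK hc
  refine ⟨m, h, H, t1, t2, fun s hs hs1 => ?_⟩
  have hexp : Real.exp ((1 + 2 * θ + (1 - x / a)) * a *
      (J / 2 * (wl β a n ^ 2 * (β ^ 2 / 2 * n)))) ≤ Real.exp (2 * J) := by
    refine Real.exp_le_exp.2 ?_
    rw [hw]
    have e : (1 + 2 * θ + (1 - x / a)) * a * ((J : ℝ) / 2 * (1 / a)) =
        (1 + 2 * θ + (1 - x / a)) / 2 * J := by
      field_simp
    rw [e]
    have : (1 + 2 * θ + (1 - x / a)) / 2 ≤ 2 := by linarith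
    exact mul_le_mul_of_nonneg_right this hJ0
  rw [Fintype.card_fin, div_le_iff₀ hnp, hw] at hD
  have hS0 : ∀ b : Fin n, 0 ≤ Et a θ (1 - x / a) (1 - T) (1 - T / 2) 1
      (lz (R1C.kk n β) (SkS (n := n))) (fun _ _ z => DSw β (wl β a n) n J (Sb b) m h z) := fun b =>
    R1.Et_nonneg hF ha fun _ _ z => H.DS_nonneg hn (abs_Sb' b) z
  calc ∑ b : Fin n, Et a θ (1 - x / a) (1 - T) (1 - T / 2) s
        (Fz n β m (fun _ => wl β a n) J) (fun _ _ z => Ax a (√(1 - s))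
          (Fz n β m (fun _ => wl β a n) J) (DSw β (wl β a n) n J (Sb b) m h) z)
      ≤ ∑ b : Fin n, Real.exp (2 * J) * Et a θ (1 - x / a) (1 - T) (1 - T / 2) 1
          (lz (R1C.kk n β) (SkS (n := n))) (fun _ _ z => DSw β (wl β a n) n J (Sb b) m h z) :=
        Finset.sum_le_sum fun b _ => (law_w hn H (abs_Sb' b) ha hθ hη0 hs hs1).trans
          (mul_le_mul_of_nonneg_right hexp (hS0 b))
    _ = Real.exp (2 * J) * ∑ b : Fin n, Et a θ (1 - x / a) (1 - T) (1 - T / 2) 1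
          (lz (R1C.kk n β) (SkS (n := n))) (fun _ _ z => DSw β (wl β a n) n J (Sb b) m h z) := by
        rw [Finset.mul_sum]
    _ ≤ Real.exp (2 * J) * (1 / (8 * (1 / a)) * n) :=
        mul_le_mul_of_nonneg_left hD (Real.exp_pos _).le
    _ = Real.exp (2 * J) * (a / 8) * n := by
        field_simp

end Vale.Agent.P146.U.H240
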