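import Vale.Agent.P146.U.Core
import Vale.Agent.P146.U.H240.Kch

/-!
The conditions on the parameters which hold for all large `n`.
-/

namespace Vale.Agent.P146.U.H240

/-- **The conditions which hold for all large `n`.** -/
theorem kl_large {β : ℝ} (hβ : 0 < β) (J : ℕ) {η A : ℝ} (hη : 0 < η) (hA : 0 < A) :
    ∃ n0 : ℕ, 2 ≤ n0 ∧ ∀ n : ℕ, n0 ≤ n → ∀ a T : ℝ, (n : ℝ) ^ (-(1 / 5) : ℝ) ≤ a →
      a ≤ (n : ℝ) ^ (-(1 / 20) : ℝ) → (n : ℝ) ^ (-(9 / 10) : ℝ) ≤ T →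
      T ≤ (n : ℝ) ^ (-(1 / 10) : ℝ) →
      β ^ 2 ≤ n ∧ 0 < a ∧ a ≤ 1 / ((J : ℝ) + 1) ∧ a ≤ 1 ∧ 8 * β ^ 2 * a ^ 2 ≤ 1 ∧ T ≤ 1 / A ∧
        a * (n : ℝ) ^ ((1 : ℝ) / 22) ≤ 1 ∧ 1 / (n : ℝ) ^ 2 ≤ T ∧ J * wl β a n ^ 2 ≤ η ∧
        ((n : ℝ) ^ 200)⁻¹ ≤ a := by
  have hJ0 : (0 : ℝ) ≤ J := Nat.cast_nonneg J
  have hev1 := (tendsto_rpow_neg_atTop (show (0 : ℝ) < 1 / 20 by norm_num)).comp
    tendsto_natCast_atTop_atTop
  have hev2 := (tendsto_rpow_neg_atTop (show (0 : ℝ) < 1 / 10 by norm_num)).comp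
    tendsto_natCast_atTop_atTop
  have c1 : (0 : ℝ) < 1 / ((J : ℝ) + 1) := by positivity
  have c2 : (0 : ℝ) < 1 / (8 * β ^ 2 + 1) := by positivity
  have c3 : (0 : ℝ) < 1 / A := by positivity
  have c4 : (0 : ℝ) < η * β ^ 2 / (2 * (J + 1)) := by positivity
  obtain ⟨n₁, hn₁⟩ := Filter.eventually_atTop.1 (((hev1.eventually (Iio_mem_nhds c1)).and
    (hev1.eventually (Iio_mem_nhds c2))).and ((hev2.eventually (Iio_mem_nhds c3)).and
    (hev2.eventually (Iio_mem_nhds c4))))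
  obtain ⟨n₂, hn₂⟩ := exists_nat_ge (β ^ 2)
  refine ⟨max (max n₁ n₂) 2, le_max_right _ _, fun n hn a T ha1 ha2 hT1 hT2 => ?_⟩
  have hn2 : 2 ≤ n := (le_max_right _ _).trans hn
  have hnβ : β ^ 2 ≤ n := hn₂.trans (by
    exact_mod_cast ((le_max_right _ _).trans (le_max_left _ _)).trans hn)
  obtain ⟨⟨g1, g2⟩, g3, g4⟩ := hn₁ n (((le_max_left _ _).trans (le_max_left _ _)).trans hn)
  simp only [Function.comp_apply] at g1 g2 g3 g4
  have hnr : (2 : ℝ) ≤ n := by exact_mod_cast hn2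
  have hn0 : (0 : ℝ) < n := by linarith
  have hn1 : (1 : ℝ) ≤ n := by linarith
  have ha0 : 0 < a := (Real.rpow_pos_of_pos hn0 _).trans_le ha1
  have hT0 : 0 < T := (Real.rpow_pos_of_pos hn0 _).trans_le hT1
  have hle : ∀ p q : ℝ, p ≤ q → (n : ℝ) ^ p ≤ (n : ℝ) ^ q := fun p q h =>
    Real.rpow_le_rpow_of_exponent_le hn1 h
  have haJ : a ≤ 1 / ((J : ℝ) + 1) := ha2.trans g1.le
  have ha11 : a ≤ 1 := by
    refine haJ.trans ?_
    rw [div_le_one (by positivity)]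
    linarith
  have haβ : a ≤ 1 / (8 * β ^ 2 + 1) := ha2.trans g2.le
  refine ⟨hnβ, ha0, haJ, ha11, ?_, hT2.trans g3.le, ?_, ?_, ?_, ?_⟩
  · have h1 : a ^ 2 ≤ a := by nlinarith
    calc 8 * β ^ 2 * a ^ 2 ≤ 8 * β ^ 2 * a := by gcongr
      _ ≤ 8 * β ^ 2 * (1 / (8 * β ^ 2 + 1)) := by gcongr
      _ ≤ 1 := by
          rw [mul_one_div, div_le_one (by positivity)]
          linarith
  · calc a * (n : ℝ) ^ ((1 : ℝ) / 22) ≤ (n : ℝ) ^ (-(1 / 20) : ℝ) * (n : ℝ) ^ ((1 : ℝ) / 22) := by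
          gcongr
      _ = (n : ℝ) ^ (-(1 / 20) + 1 / 22 : ℝ) := by rw [Real.rpow_add hn0]
      _ ≤ (n : ℝ) ^ (0 : ℝ) := hle _ _ (by norm_num)
      _ = 1 := Real.rpow_zero _
  · refine le_trans (le_of_eq ?_) ((hle (-2) (-(9 / 10)) (by norm_num)).trans hT1)
    rw [Real.rpow_neg hn0.le, one_div]
    norm_num
  · have hw : wl β a n ^ 2 = 2 / (β ^ 2 * n * a) := by
      unfold wl
      rw [Real.sq_sqrt (by positivity)]
    rw [hw]
    have h1 : (n : ℝ) ^ (1 / 10 : ℝ) ≤ n * a := by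
      calc (n : ℝ) ^ (1 / 10 : ℝ) ≤ (n : ℝ) ^ (4 / 5 : ℝ) := hle _ _ (by norm_num)
        _ = n * (n : ℝ) ^ (-(1 / 5) : ℝ) := by
            nth_rw 2 [← Real.rpow_one (n : ℝ)]
            rw [← Real.rpow_add hn0]
            norm_num
        _ ≤ n * a := mul_le_mul_of_nonneg_left ha1 hn0.le
    have h2 : 1 / (n * a) ≤ (n : ℝ) ^ (-(1 / 10) : ℝ) := by
      rw [Real.rpow_neg hn0.le, ← one_div]
      exact one_div_le_one_div_of_le (Real.rpow_pos_of_pos hn0 _) h1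
    have h3 : 1 / (n * a) ≤ η * β ^ 2 / (2 * (J + 1)) := h2.trans g4.le
    calc (J : ℝ) * (2 / (β ^ 2 * n * a)) = 2 * J / β ^ 2 * (1 / (n * a)) := by
          field_simp
      _ ≤ 2 * J / β ^ 2 * (η * β ^ 2 / (2 * (J + 1))) := by gcongr
      _ = η * (J / (J + 1)) := by
          field_simp
      _ ≤ η * 1 := by
          gcongr
          rw [div_le_one (by positivity)]
          linarith
      _ = η := mul_one _
  · refine le_trans (le_of_eq ?_) ((hle (-200) (-(1 / 5)) (by norm_num)).trans ha1)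
    rw [Real.rpow_neg hn0.le]
    norm_num

end Vale.Agent.P146.U.H240
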