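import Vale.Agent.P146.U.Core

/-!
The real numbers of the K-side: from the kappa inequality and (L) at one regular window, with
constants, to the two bounds of `KStar`.
-/

namespace Vale.Agent.P146.U.H240

/-- **The two inequalities, solved.** -/
theorem kl_num {D E : ℝ} (hD : 0 < D) (hE : 0 ≤ E) : ∃ C M : ℝ, ∃ n0 : ℕ, 0 < C ∧ 0 < M ∧
    ∀ n : ℕ, n0 ≤ n → ∀ a T R Lam : ℝ, (n : ℝ) ^ (-(1 / 5) : ℝ) ≤ a →
      a ≤ (n : ℝ) ^ (-(1 / 20) : ℝ) → (n : ℝ) ^ (-(9 / 10) : ℝ) ≤ T → 0 ≤ R → M ≤ Lam →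
      (D * a ≤ √R → R ≤ D * (√(1 / (n * T)) + a * √R +
        ((1 / Lam + 1 / (n * T)) ^ ((1 : ℝ) / 8) + E * a) * R + 1 / n)) →
      T ≤ D * (√(1 / (n * T)) + a * √R + R + 1 / n) →
      R ≤ C * (a ^ 2 + 1 / √(n * T)) ∧ T ≤ C * (a ^ 2 + 1 / √(n * T)) := by
  obtain ⟨e, he0, he1, he, -⟩ := exists_small (K := D) (k := 1 / 8) hD.le (by norm_num)
  have hev1 := (tendsto_rpow_neg_atTop (show (0 : ℝ) < 1 / 10 by norm_num)).comp
    tendsto_natCast_atTop_atTop
  have hev2 := (tendsto_rpow_neg_atTop (show (0 : ℝ) < 1 / 20 by norm_num)).comp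
    tendsto_natCast_atTop_atTop
  have hq : (0 : ℝ) < 1 / (4 * (D * E + 1)) := by positivity
  obtain ⟨n₁, hn₁⟩ := Filter.eventually_atTop.1 ((hev1.eventually (Iio_mem_nhds he0)).and
    (hev2.eventually (Iio_mem_nhds hq)))
  refine ⟨(8 * D + 4 * D ^ 2) + D * (3 + 2 * (8 * D + 4 * D ^ 2)), 1 / e, max 1 n₁, by positivity,
    by positivity, fun n hn a T R Lam ha1 ha2 hT hR hL hK hLin => ?_⟩
  have hn1 : 1 ≤ n := (le_max_left _ _).trans hn
  have hn0 : (0 : ℝ) < n := by exact_mod_cast hn1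
  have hnr : (1 : ℝ) ≤ n := by exact_mod_cast hn1
  obtain ⟨g1, g2⟩ := hn₁ n ((le_max_right _ _).trans hn)
  simp only [Function.comp_apply] at g1 g2
  have ha0 : 0 < a := (Real.rpow_pos_of_pos hn0 _).trans_le ha1
  have hT0 : 0 < T := (Real.rpow_pos_of_pos hn0 _).trans_le hT
  have hnT : 0 < n * T := by positivity
  have hLam : 0 < Lam := lt_of_lt_of_le (by positivity) hL
  -- small numbers
  have h1 : 1 / Lam ≤ e := by
    rw [div_le_iff₀ hLam]
    rw [div_le_iff₀ he0] at hL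
    linarith
  have h2 : 1 / (n * T) ≤ e := by
    have h3 : (n : ℝ) ^ (1 / 10 : ℝ) ≤ n * T := by
      calc (n : ℝ) ^ (1 / 10 : ℝ) = n * (n : ℝ) ^ (-(9 / 10) : ℝ) := by
            nth_rw 2 [← Real.rpow_one (n : ℝ)]
            rw [← Real.rpow_add hn0]
            norm_num
        _ ≤ n * T := mul_le_mul_of_nonneg_left hT hn0.le
    calc 1 / (n * T) ≤ 1 / (n : ℝ) ^ (1 / 10 : ℝ) :=
          one_div_le_one_div_of_le (Real.rpow_pos_of_pos hn0 _) h3
      _ = (n : ℝ) ^ (-(1 / 10) : ℝ) := by rw [Real.rpow_neg hn0.le, one_div]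
      _ ≤ e := g1.le
  have h3 : D * ((1 / Lam + 1 / (n * T)) ^ ((1 : ℝ) / 8)) ≤ 1 / 4 := by
    refine le_trans (mul_le_mul_of_nonneg_left ?_ hD.le) he
    exact Real.rpow_le_rpow (by positivity) (by linarith) (by norm_num)
  have h4 : D * (E * a) ≤ 1 / 4 := by
    have h5 : a ≤ 1 / (4 * (D * E + 1)) := ha2.trans g2.le
    calc D * (E * a) = D * E * a := by ring
      _ ≤ D * E * (1 / (4 * (D * E + 1))) := mul_le_mul_of_nonneg_left h5 (by positivity)
      _ ≤ 1 / 4 := by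
          rw [mul_one_div, div_le_div_iff₀ (by positivity) (by norm_num)]
          linarith
  have hn2 : 1 / (n : ℝ) ≤ a ^ 2 := by
    have h5 : ((n : ℝ) ^ (-(1 / 5) : ℝ)) ^ 2 ≤ a ^ 2 :=
      pow_le_pow_left₀ (Real.rpow_nonneg hn0.le _) ha1 2
    refine le_trans ?_ h5
    rw [← Real.rpow_natCast, ← Real.rpow_mul hn0.le, one_div, ← Real.rpow_neg_one (n : ℝ)]
    exact Real.rpow_le_rpow_of_exponent_le hnr (by norm_num)
  have hsq : √(1 / (n * T)) = 1 / √(n * T) := by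
    rw [Real.sqrt_div zero_le_one, Real.sqrt_one]
  have hs0 : 0 < 1 / √((n : ℝ) * T) := by
    have := Real.sqrt_pos.2 hnT
    positivity
  obtain ⟨W, hW⟩ : ∃ W : ℝ, W = a ^ 2 + 1 / √((n : ℝ) * T) := ⟨_, rfl⟩
  have hW0 : 0 ≤ W := by
    rw [hW]
    positivity
  have haW : a ^ 2 ≤ W := by
    rw [hW]
    linarith
  have hsW : 1 / √((n : ℝ) * T) ≤ W := by
    rw [hW]
    linarith [sq_nonneg a]
  rw [hsq] at hK hLin
  have k1 : R ≤ (8 * D + 4 * D ^ 2) * W := by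
    refine kap_solve (v := 1 / √((n : ℝ) * T) + 1 / n) (a := a)
      (sm := (1 / Lam + 1 / (n * T)) ^ ((1 : ℝ) / 8) + E * a) hD.le ha0.le hR (by linarith) haW
      (by rw [mul_add]; linarith) fun h => ?_
    refine (hK h).trans (le_of_eq ?_)
    ring
  rw [← hW]
  have hR' : a * √R ≤ W + R := by
    have h5 := Real.sq_sqrt hR
    nlinarith [sq_nonneg (a - √R), Real.sqrt_nonneg R]
  refine ⟨k1.trans ?_, ?_⟩
  · refine mul_le_mul_of_nonneg_right ?_ hW0
    have : 0 ≤ D * (3 + 2 * (8 * D + 4 * D ^ 2)) := by positivity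
    linarith
  · calc T ≤ D * (1 / √((n : ℝ) * T) + a * √R + R + 1 / n) := hLin
      _ ≤ D * (W + (W + R) + R + W) := by
          refine mul_le_mul_of_nonneg_left ?_ hD.le
          linarith
      _ = D * (3 * W + 2 * R) := by ring
      _ ≤ D * (3 * W + 2 * ((8 * D + 4 * D ^ 2) * W)) := by
          refine mul_le_mul_of_nonneg_left ?_ hD.le
          linarith
      _ ≤ _ := by
          have : 0 ≤ (8 * D + 4 * D ^ 2) * W := by positivity
          nlinarith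

end Vale.Agent.P146.U.H240
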