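import Vale.Agent.P146.U.H240.KapW
import Vale.Agent.P146.U.H240.Kch
import Vale.Agent.P146.U.H240.KLnum
import Vale.Agent.P146.U.H240.KLlarge
import Vale.Agent.P146.U.H979.FoA
import Vale.Agent.P146.U.H979.DeepMt

/-!
The K-side at one regular window with growth: the two inequalities for the deep systems with
`w² β² n / 2 = 1 / a`. `KapC` and `LamC` are the outputs of the blocks KAP and LAM.
-/

open MeasureTheory ProbabilityTheory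

namespace Vale.Agent.P146.U.H240

open Vale.Agent.P157.Lv Vale.Agent.P146.H425 Vale.Agent.P146.H325
open Vale.Agent.P146.H332 hiding Et NN
open Vale.Agent.P146.R1 hiding Et Et4 Et4_123 Et4_124 Et4_add Et4_const Et4_const_mul Et4_cs
  Et4_mono Et4_nonneg Et4_sub Et_add Et_const Et_const_mul Et_cs Et_fst_eq Et_jensen Et_mono
  Et_nonneg Et_sub Et_weight Et_zero Eu Eu4 Eu4_123 Eu4_124 Eu4_add Eu4_cond Eu4_const_mul
  Eu4_iter Eu4_mono Eu4_nonneg Eu4_one_eq Eu4_one_eq' Eu4_one_pos Eu4_weight Eu_add Eu_const_mul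
  Eu_fst Eu_fst_eq Eu_iter Eu_mono Eu_nonneg Eu_one Eu_one_eq Eu_one_pos Eu_weight Eu_zero
  Eu_zero_one Lth Lth_zero Qt dn dn_pos e3_dn eg_Eu eg_Eu4
open Vale.Agent.P146.H785 (Ax)
open Vale.Agent.P146.U.R1C (Par En Law2 Fo Gro law2_of)
open Vale.Agent.P146.U.R1S
open Vale.Agent.P146.R1S (C8 C8_nonneg)
open Vale.Agent.P146.R1C (AvP kk NN)
open Vale.Agent.P146.H327 (Sb)
open Vale.Agent.P146.U.H979

set_option linter.unusedSectionVars false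

/-- **The output of the block KAP** (bad bulks given by a functional `X`). -/
def KapC (β Γ κ τ : ℝ) : Prop :=
  ∃ (C : ℝ) (m n₀ : ℕ), 0 ≤ C ∧ ∀ n : ℕ, n₀ ≤ n → ∀ (q : Par) (S : CS n (kk n β) q.x)
    (A δ T ρ Λ e0 B L M : ℝ) (HF TF : Pair n → Pair n → (Pair n → ℝ) → ℝ)
    (X : Fin n → Fin n → (Pair n → ℝ) → ℝ),
    10 ≤ A → β ^ 2 ≤ A → β ^ 2 ≤ A * τ → 0 ≤ e0 → Sm S.F S.D B L HF TF M →
    (∀ s : ℝ, Vale.Agent.P146.Cum.Fn (kk n β) SkS (R1.uu q.x s S.F) (S.mu s) Γ) →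
    Mt q.x S.F S.mu → Fo n β A δ T ρ Λ S.y q S.F S.A S.DA → Gro n β A ρ q S.F S.A →
    (∀ b b' z, 0 ≤ X b b' z) → (∀ b b', EG (X b b')) →
    H191.KapG S q.s1 τ κ (NN n β ρ / (2 * A)) X →
    ∑ b : Fin n, ∑ b' ∈ Finset.univ.erase b,
      En q S.F (fun w => X b b' (R1C.P2 q w)) ≤ e0 * (n : ℝ) ^ 2 →
    NN n β ρ / (n : ℝ) ^ 2 ≤ C * A ^ m *
      (√(1 / (n * T)) + q.x * √(NN n β ρ / (n : ℝ) ^ 2) +
        ((1 / Λ + 1 / (n * T)) ^ ((1 : ℝ) / 8) + e0) * (NN n β ρ / (n : ℝ) ^ 2) + 1 / n)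

/-- **The output of the block LAM.** -/
def LamC (β Γ : ℝ) : Prop :=
  ∃ (C : ℝ) (m n₀ : ℕ), 0 ≤ C ∧ ∀ n : ℕ, n₀ ≤ n → ∀ (q : Par) (S : CS n (kk n β) q.x)
    (A δ T ρ Λ B L M : ℝ) (HF TF : Pair n → Pair n → (Pair n → ℝ) → ℝ),
    2 ≤ A → Sm S.F S.D B L HF TF M →
    (∀ s : ℝ, Vale.Agent.P146.Cum.Fn (kk n β) SkS (R1.uu q.x s S.F) (S.mu s) Γ) →
    Mt q.x S.F S.mu → Fo n β A δ T ρ Λ S.y q S.F S.A S.DA →
    T ≤ C * A ^ m * (√(1 / (n * T)) + q.x * (√(NN n β ρ) / n) + (√(NN n β ρ) / n) ^ 2 + 1 / n)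

/-- the datum at the horizon `1` -/
lemma reg1 {κ : Type} [Fintype κ] {G : (κ → ℝ) → ℝ} {D : κ → (κ → ℝ) → ℝ}
    {B L x a T ρ Λ : ℝ} (r : RegU x a 1 T ρ Λ G) (h : C11 G D B L) (hc : Cv G) :
    R1.Reg a (1 - x / a) T ρ Λ G := by
  refine R1.Reg.of_incr h hc r.a0 r.η0 r.η1 r.T0 r.Tu r.Λ1 r.ρ0 ?_ ?_
  · rw [r.outer]
    exact r.lo
  · rw [r.outer]
    exact r.up

lemma D_row' {n : ℕ} {k : ℝ} {q : Par} (S : CS n k q.x) (b : Fin n) (z : Pair n → ℝ) :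
    ∑ e ∈ row b, S.D e z ^ 2 ≤ k ^ 2 * n := by
  have h1 := S.sum_row_A 1 b z
  have h2 := lw_vn_le S 1 b z
  have h3 : ∑ e ∈ row b, S.D e z ^ 2 = ∑ e ∈ row b, (k * S.A 1 z e.1.1 e.1.2) ^ 2 :=
    Finset.sum_congr rfl fun e _ => by rw [S.D_eq]
  rw [h3, h1]
  refine mul_le_mul_of_nonneg_left ?_ (sq_nonneg k)
  linarith

lemma D_rows' {n : ℕ} {k : ℝ} {q : Par} (S : CS n k q.x) (b b' : Fin n) (z : Pair n → ℝ) :
    ∑ e ∈ row b ∪ row b', S.D e z ^ 2 ≤ 2 * (k ^ 2 * n) := by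
  have h1 : ∑ e ∈ row b ∪ row b', S.D e z ^ 2 ≤
      ∑ e ∈ row b, S.D e z ^ 2 + ∑ e ∈ row b', S.D e z ^ 2 := by
    rw [← Finset.sum_union_inter]
    exact le_add_of_nonneg_right (Finset.sum_nonneg fun _ _ => sq_nonneg _)
  have h2 := D_row' S b z
  have h3 := D_row' S b' z
  linarith

/-- **The K-side at one regular window with growth.** -/
theorem kl_reg {β : ℝ} (hβ : 0 < β)
    (hK : ∀ Γ κ τ : ℝ, 0 ≤ Γ → 0 < κ → 0 < τ → τ ≤ 1 / 40 → KapC β Γ κ τ)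
    (hL : ∀ Γ : ℝ, 0 ≤ Γ → LamC β Γ) (Λ N K : ℝ) (hΛ : 1 ≤ Λ) (hN : 150 * (2 * Λ + 1) ≤ N)
    (hK6 : 6 ≤ K) : ∃ C M : ℝ, ∃ n0 : ℕ, 0 < C ∧ 0 < M ∧ ∀ n : ℕ, n0 ≤ n → ∀ x a T ρ : ℝ,
      (n : ℝ) ^ (-(1 / 5) : ℝ) ≤ a → a ≤ (n : ℝ) ^ (-(1 / 20) : ℝ) →
      (n : ℝ) ^ (-(9 / 10) : ℝ) ≤ T → T ≤ (n : ℝ) ^ (-(1 / 10) : ℝ) →
      KReg x a T ρ Λ N K (Fsk n β) → M ≤ x * a * ρ * T →
      ρ / (β ^ 2 * n) ≤ C * (a ^ 2 + 1 / √(n * T)) ∧ T ≤ C * (a ^ 2 + 1 / √(n * T)) := by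
  obtain ⟨J, η, c0, C7, hJ, hη, hc0, hC7, h7⟩ := k7w hβ
  obtain ⟨τ, κ, D, hτ, hτ1, hκ, hD1, hG⟩ := kapG_w (J := J) hβ hc0 hC7.le
  have hΓ : (0 : ℝ) ≤ 4 + 2 * (J : ℝ) := by positivity
  obtain ⟨C5, m5, n5, hC5, h5⟩ := hK _ κ τ hΓ hκ hτ hτ1
  obtain ⟨C4, m4, n4, hC4, h4⟩ := hL _ hΓ
  obtain ⟨Λr, hΛr⟩ : ∃ Λr : ℝ, Λr = 2 * Λ + 1 := ⟨_, rfl⟩
  have hΛr1 : 1 ≤ Λr := by
    rw [hΛr]
    linarith
  obtain ⟨A₀, hA₀, herr⟩ := R1.err_num Λr hΛr1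
  obtain ⟨A, hA⟩ : ∃ A : ℝ, A = (256 + 144 * Λr + β ^ 2) + 4096 * K + β ^ 2 / τ + A₀ := ⟨_, rfl⟩
  have hβτ : 0 ≤ β ^ 2 / τ := by positivity
  have hβ2 := sq_nonneg β
  have hA1 : 256 + 144 * Λr + β ^ 2 ≤ A := by
    rw [hA]
    linarith
  have hA2 : 4096 * K ≤ A := by
    rw [hA]
    linarith
  have hA3 : β ^ 2 / τ ≤ A := by
    rw [hA]
    linarith
  have hA4 : A₀ ≤ A := by
    rw [hA]
    linarith
  have hA10 : 10 ≤ A := by linarith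
  have hAβ : β ^ 2 ≤ A := by linarith
  have hA0 : 0 < A := by linarith
  obtain ⟨nl, hnl2, hlarge⟩ := kl_large hβ J hη hA0
  obtain ⟨nw, -, hlaw⟩ := law2_of hβ
  obtain ⟨E, hE⟩ : ∃ E : ℝ, E = Real.exp (2 * J) / 4 + 1 := ⟨_, rfl⟩
  have hE0 : 0 ≤ E := by
    rw [hE]
    positivity
  obtain ⟨D', hD'⟩ : ∃ D' : ℝ, D' = C5 * A ^ m5 + C4 * A ^ m4 + D * √A := ⟨_, rfl⟩
  have hD'0 : 0 < D' := by
    have h1 : 0 < D * √A := by
      have := Real.sqrt_pos.2 hA0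
      positivity
    rw [hD']
    positivity
  obtain ⟨C, M, nk, hC, hM, hkl⟩ := kl_num hD'0 hE0
  refine ⟨2 * C, 2 * A ^ 200 + 500 * J + 2 * M, max (max (max n5 n4) (max nl nw)) nk, by positivity,
    by positivity, ?_⟩
  intro n hn x a T ρ ha1 ha2 hT1 hT2 r hMM
  have hn5 : n5 ≤ n := ((le_max_left _ _).trans ((le_max_left _ _).trans (le_max_left _ _))).trans hn
  have hn4 : n4 ≤ n := ((le_max_right _ _).trans ((le_max_left _ _).trans (le_max_left _ _))).trans hn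
  have hnl : nl ≤ n := ((le_max_left _ _).trans ((le_max_right _ _).trans (le_max_left _ _))).trans hn
  have hnw : nw ≤ n := ((le_max_right _ _).trans ((le_max_right _ _).trans (le_max_left _ _))).trans hn
  have hnk : nk ≤ n := (le_max_right _ _).trans hn
  have hn2 : 2 ≤ n := hnl2.trans hnl
  have hn0 : 0 < n := by omega
  have hnr : (0 : ℝ) < n := by exact_mod_cast hn0
  obtain ⟨hβn, ha0, haJ, ha11, h8, hTA, hx22, hTn, hJw, hεa⟩ := hlarge n hnl a T ha1 ha2 hT1 hT2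
  have hx := r.x0
  have hxa := r.xa
  have hT := r.T0
  have hρ := r.ρ0
  have hk : 0 < kk n β := by
    unfold kk
    have := Real.sqrt_pos.2 hnr
    positivity
  have hJ0 : (0 : ℝ) ≤ J := Nat.cast_nonneg J
  have hA1' : 1 ≤ A := by linarith
  have hA200 : A ≤ A ^ 200 := le_self_pow₀ hA1' (by norm_num)
  have hAp : 0 < A ^ 200 := by positivity
  obtain ⟨Lam, hLam⟩ : ∃ Lam : ℝ, Lam = x * a * (ρ / 2) * T := ⟨_, rfl⟩
  have hLam2 : 2 * Lam = x * a * ρ * T := by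
    rw [hLam]
    ring
  have hL1 : A ^ 200 ≤ Lam := by linarith
  have hL2 : M ≤ Lam := by linarith
  have hL3 : 400 ≤ Lam := by linarith
  have hxx : x * a * ρ * T ≤ a ^ 2 * ρ * T := by
    rw [pow_two]
    gcongr
  have hL4 : 500 * J ≤ a ^ 2 * ρ * T := by linarith
  have hL5 : Lam ≤ a ^ 2 * (ρ / 2) * T := by
    have : a ^ 2 * (ρ / 2) * T = a ^ 2 * ρ * T / 2 := by ring
    rw [this]
    linarith
  have hη0 := r.η0
  have hη1 := r.η1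
  have hθ : R1.Th (R1.thr (1 - x / a) Λr) (1 - x / a) Λr := R1.th_of hη1 hΛr1
  have hθ0 : 0 ≤ R1.thr (1 - x / a) Λr := hθ.pos.le
  have hθ1 : R1.thr (1 - x / a) Λr ≤ 1 / 2 := by
    unfold R1.thr
    rw [div_le_iff₀ (by positivity)]
    linarith
  have r' : KReg x a T ρ Λ N K (lz (kk n β) (SkS (n := n))) := r
  obtain ⟨m, h, H, rU, gU, hS⟩ := k_choice hβ J hn0 r' ha11 (by linarith) hK6 hL4 hθ0 hθ1
  have hEx : Exs m J a := H.exs ha0 haJ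
  obtain ⟨S, hSd⟩ : ∃ S : CS n (kk n β) a, S = deepCS n hk (fun _ => wl β a n) hEx := ⟨_, rfl⟩
  have hSF : S.F = Fz n β m (fun _ => wl β a n) J := by
    rw [hSd]
    rfl
  have hSy : S.y = a := by
    rw [hSd]
    rfl
  have hSm : ∃ (B L : ℝ) (HF TF : Pair n → Pair n → (Pair n → ℝ) → ℝ) (M : ℝ),
      Sm S.F S.D B L HF TF M := by
    rw [hSd]
    exact ⟨_, _, _, _, _, sm_Fdp hEx⟩
  obtain ⟨B, L, HF, TF, M', hSm⟩ := hSm
  have hFn : ∀ s : ℝ, Vale.Agent.P146.Cum.Fn (kk n β) SkS (R1.uu a s S.F) (S.mu s)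
      (4 + 2 * (J : ℝ)) := by
    rw [hSd]
    exact fun s => Cum.fn_deepCS hk (fun _ => wl β a n) hEx s
  have hMt : Mt a S.F S.mu := by
    rw [hSd]
    exact mt_dpn _ _ _ _ _ _
  have hR : R1.Reg a (1 - x / a) T (ρ / 2) Λr S.F := by
    refine reg1 ?_ S.c11 S.cv
    rw [hSF, hΛr]
    exact rU
  have hyy : R1.yy a (1 - x / a) T (ρ / 2) = Lam := by
    rw [hLam]
    unfold R1.yy
    field_simp
    ring
  obtain ⟨δ, hδ⟩ : ∃ δ : ℝ, δ = 3 * Real.exp (-(Lam / (1024 * Λr))) := ⟨_, rfl⟩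
  have hδΛ : Lam ^ 1000 * δ ≤ 1 := by
    rw [mul_comm, hδ]
    exact herr A Lam Lam hA4 hL1 le_rfl
  have hδ0 : 0 ≤ δ := by
    rw [hδ]
    positivity
  have hδ2 : δ ≤ 1 / 2 := by
    have h1 : (2 : ℝ) ≤ Lam ^ 1000 := by
      have : Lam ≤ Lam ^ 1000 := le_self_pow₀ (by linarith) (by norm_num)
      linarith
    have h2 : 2 * δ ≤ Lam ^ 1000 * δ := mul_le_mul_of_nonneg_right h1 hδ0
    linarith
  obtain ⟨s1, s2, h1, h12, h2, hf⟩ := fo_of hn2 hβ hβn S hSm hR hx22 hTn hA1 hL1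
    (by rw [hSy]; exact hL5) (by rw [hyy]; exact hL3) (by rw [hyy, ← hδ]) hδΛ
  have hgro := gro_of (N := N) hn2 hβ S hSm hR (by rw [hΛr]; exact hN) hK6 r.KT (by rw [hyy]; linarith)
    (by rw [hyy, ← hδ]; exact hδ2) hA2 (by
      rw [r.outer, hSF]
      exact gU) h1 h12 h2
  obtain ⟨q, hq⟩ : ∃ q : Par, q = qr a (1 - x / a) T Λr s1 s2 := ⟨_, rfl⟩
  have hok := hf.ok
  have hρA := hf.ρA
  have hlw : Law2 n ((n : ℝ) ^ 200)⁻¹ (qr a (1 - x / a) T Λr s1 s2) S.F := by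
    refine hlaw n hnw _ S.F _ _ _ S.c11 hok hx22 fun b b' z => ?_
    have := D_rows' (q := qr a (1 - x / a) T Λr s1 s2) S b b' z
    rwa [kk_two hn0 β] at this
  have hs1 : 1 - T / 2 ≤ s1 := h1.le
  have hs1' : s1 ≤ 1 := by linarith
  have hs12 : 1 / 2 ≤ s1 := by
    have := r.Tu
    linarith
  have hsum := hS s1 hs1 hs1'
  have hX := x_sum_w (q := qr a (1 - x / a) T Λr s1 s2) (ε := ((n : ℝ) ^ 200)⁻¹)
    (e1 := Real.exp (2 * J) * (a / 8)) H hn0 hok (by positivity) (by rw [← hSF]; exact hlw) hsum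
  have hX' : ∑ b : Fin n, ∑ b' ∈ Finset.univ.erase b,
      En (qr a (1 - x / a) T Λr s1 s2) S.F (fun w => XDw β (wl β a n) a s1 h n J m b b'
        (R1C.P2 (qr a (1 - x / a) T Λr s1 s2) w)) ≤ E * a * (n : ℝ) ^ 2 := by
    rw [hSF]
    refine hX.trans ?_
    rw [mul_comm]
    refine mul_le_mul_of_nonneg_right ?_ (by positivity)
    rw [hE]
    linarith
  have hNN : NN n β (ρ / 2) / (n : ℝ) ^ 2 = ρ / (β ^ 2 * n) := by
    unfold NN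
    field_simp
  have hNN2 : 2 * (ρ / 2) / (β ^ 2 * n) = ρ / (β ^ 2 * n) := by ring
  have hR0 : 0 ≤ ρ / (β ^ 2 * n) := by positivity
  have hlam := h4 n hn4 (qr a (1 - x / a) T Λr s1 s2) S A δ T (ρ / 2) Lam B L M' HF TF
    (by linarith) hSm hFn hMt hf
  have hAτ : β ^ 2 ≤ A * τ := by rwa [div_le_iff₀ hτ] at hA3
  have key := hkl n hnk a T (ρ / (β ^ 2 * n)) Lam ha1 ha2 hT1 hR0 hL2 ?_ ?_
  · refine ⟨key.1.trans ?_, key.2.trans ?_⟩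
    · have : 0 ≤ C * (a ^ 2 + 1 / √(n * T)) := by positivity
      linarith
    · have : 0 ≤ C * (a ^ 2 + 1 / √(n * T)) := by positivity
      linarith
  · intro hDa
    have hDs : D * √A ≤ D' := by
      rw [hD']
      have : 0 ≤ C5 * A ^ m5 + C4 * A ^ m4 := by positivity
      linarith
    have hKG : H191.KapG S (qr a (1 - x / a) T Λr s1 s2).s1 τ κ (NN n β (ρ / 2) / (2 * A))
        (XDw β (wl β a n) a s1 h n J m) := by
      rw [hSd]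
      refine hG hn0 hk hEx H (wl_sq hβ ha0 hn0) (h7 hn0 hk hEx hJw H) hs12 hs1' h8 hA0 (by positivity) ?_
      rw [hNN2]
      refine le_trans ?_ hDa
      gcongr
    have hkap := h5 n hn5 (qr a (1 - x / a) T Λr s1 s2) S A δ T (ρ / 2) Lam (E * a) B L M' HF TF
      (XDw β (wl β a n) a s1 h n J m) hA10 hAβ hAτ (by positivity) hSm hFn hMt hf hgro
      (fun b b' z => XDw_nonneg hn0 hk hEx H b b' z) (fun b b' => eg_XDw hk hEx H b b') hKG hX'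
    rw [hNN] at hkap
    refine hkap.trans ?_
    refine mul_le_mul_of_nonneg_right ?_ ?_
    · rw [hD']
      have h3 : 0 ≤ C4 * A ^ m4 + D * √A := by positivity
      linarith
    · have hLam0 : 0 < Lam := by linarith
      positivity
  · have e1 : √(NN n β (ρ / 2)) / n = √(ρ / (β ^ 2 * n)) := by
      rw [← hNN, Real.sqrt_div (by unfold NN; positivity), Real.sqrt_sq hnr.le]
    rw [e1, Real.sq_sqrt hR0] at hlam
    refine hlam.trans ?_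
    refine mul_le_mul_of_nonneg_right ?_ ?_
    · rw [hD']
      have h3 : 0 ≤ C5 * A ^ m5 + D * √A := by positivity
      linarith
    · have := hok.x0
      positivity

end Vale.Agent.P146.U.H240
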