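import Vale.Agent.P146.U.H240.Tr
import Vale.Agent.P146.U.H979.Win

/-!
A regular datum of `F` with the growth inequality is a regular datum of every `G` with
`F ≤ G ≤ F + c`, `c` small compared with the increments.
-/

open MeasureTheory ProbabilityTheory

namespace Vale.Agent.P146.U.H240

open Vale.Agent.P157.Lv Vale.Agent.P146.H425 Vale.Agent.P146.U Vale.Agent.P146.U.H979

set_option linter.unusedSectionVars false

variable {κ : Type} [Fintype κ] {F G : (κ → ℝ) → ℝ} {D D' : κ → (κ → ℝ) → ℝ}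
  {B B' L L' x a T ρ Λ c N K : ℝ}

/-- **The datum of the K-side**: regular, and the functional at the window `K T` with the exponent
`N a` is small. -/
structure KReg (x a T ρ Λ N K : ℝ) (F : (κ → ℝ) → ℝ) : Prop extends RegU x a 1 T ρ Λ F where
  KT : K * T ≤ 1
  gr : PP x (N * a) √(1 - K * T) √(K * T) F - PP x a √(1 - T) √T F ≤
    N * K / 65536 * (a * ρ * T)

/-- **Transfer.** -/
theorem KReg.transfer (r : KReg x a T ρ Λ N K F) (h : C11 F D B L) (h' : C11 G D' B' L')
    (h0 : ∀ z, F z ≤ G z) (h1 : ∀ z, G z ≤ F z + c) (hN : 150 ≤ N) (hK : 6 ≤ K)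
    (hc : 1000 * c ≤ a * ρ * T) : RegU x a 1 T (ρ / 2) (2 * Λ + 1) G ∧
      PP x (N * a) √(1 - K * T) √(K * T) G - PP x a √(1 - T) √T G ≤
        N * K / 24576 * (a * (ρ / 2) * T) := by
  have hx := r.x0
  have ha := r.a0
  have hT := r.T0
  have hρ := r.ρ0
  have hΛ := r.Λ1
  have hy : 0 < a * ρ * T := by positivity
  have k1 := PP_comp h h' hx ha h0 h1 √(1 - T) √T
  have k2 := PP_comp h h' hx ha h0 h1 √(1 - T / 2) √(T / 2)
  have k3 := PP_comp h h' hx (by positivity : 0 < 2 * a) h0 h1 √(1 - T) √T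
  have k4 := PP_comp h h' hx (by positivity : 0 < N * a) h0 h1 √(1 - K * T) √(K * T)
  have hlo := r.lo
  have hup := r.up
  have hgr := r.gr
  refine ⟨⟨hx, r.xa, hT, r.Tu, by linarith, by positivity, ?_, ?_⟩, ?_⟩
  · have e : a / 4 * (ρ / 2 * T) = a * ρ * T / 8 := by ring
    have e2 : a / 4 * (ρ * T) = a * ρ * T / 4 := by ring
    rw [e]
    rw [e2] at hlo
    linarith [k1.1, k2.2]
  · have e : a / 2 * ((2 * Λ + 1) * (ρ / 2) * T) = a / 2 * (Λ * ρ * T) + a * ρ * T / 4 := by ring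
    rw [e]
    linarith [k1.1, k3.2]
  · have e : N * K / 24576 * (a * (ρ / 2) * T) = N * K / 49152 * (a * ρ * T) := by ring
    rw [e]
    have hNK : 900 ≤ N * K := by nlinarith
    have h5 : 1 / 1000 * (a * ρ * T) ≤ (N * K / 49152 - N * K / 65536) * (a * ρ * T) := by
      refine mul_le_mul_of_nonneg_right ?_ hy.le
      linarith
    linarith [k1.1, k4.2]

end Vale.Agent.P146.U.H240
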