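import Vale.Agent.P146.U.H240.KL
import Vale.Agent.P146.U.H479.KSel

/-!
`KStar` from the outputs of the blocks KAP and LAM.
-/

open MeasureTheory ProbabilityTheory

namespace Vale.Agent.P146.U.H240

open Vale.Agent.P146.U Vale.Agent.P146.U.H479

/-- the two bounds of `KStar` from the ones at the window `T / 2 ^ i` -/
lemma kst_num {β C' a n T Δ : ℝ} {k i : ℕ} (hC : 0 < C') (ha : 0 < a) (hn : 0 < n)
    (hT : 0 < T) (hk : 1 ≤ k) (hik : i < k)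
    (h1 : 2 * Δ / (k * a * (T / 2 ^ i)) / (β ^ 2 * n) ≤
      C' * (a ^ 2 + 1 / √(n * (T / 2 ^ i))))
    (h2 : T / 2 ^ i ≤ C' * (a ^ 2 + 1 / √(n * (T / 2 ^ i)))) (hβ : 0 < β) :
    Δ ≤ (k * β ^ 2 * C' + 4 ^ k * C') * (a * n * T) * (a ^ 2 + 1 / √(n * T)) ∧
      T ≤ (k * β ^ 2 * C' + 4 ^ k * C') * (a ^ 2 + 1 / √(n * T)) := by
  have hk0 : (0 : ℝ) < k := by exact_mod_cast hk
  have h2i : (1 : ℝ) ≤ 2 ^ i := one_le_pow₀ (by norm_num)
  have h2k : (2 : ℝ) ^ i ≤ 2 ^ k := pow_le_pow_right₀ (by norm_num) hik.le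
  have hTi : 0 < T / 2 ^ i := by positivity
  have hnT : 0 < √(n * T) := Real.sqrt_pos.2 (by positivity)
  have hs : √(n * (T / 2 ^ i)) = √(n * T) / √(2 ^ i) := by
    rw [← Real.sqrt_div (by positivity), mul_div_assoc]
  have hq0 : 0 < √((2 : ℝ) ^ i) := Real.sqrt_pos.2 (by positivity)
  have hq1 : √((2 : ℝ) ^ i) ≤ 2 ^ i := by
    rw [Real.sqrt_le_left (by positivity)]
    exact le_self_pow₀ h2i (by norm_num)
  have hinv : 1 / √(n * (T / 2 ^ i)) = √(2 ^ i) * (1 / √(n * T)) := by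
    rw [hs]
    field_simp
  have hW : 0 ≤ 1 / √(n * T) := by positivity
  have hle : a ^ 2 + 1 / √(n * (T / 2 ^ i)) ≤ 2 ^ i * (a ^ 2 + 1 / √(n * T)) := by
    rw [hinv, mul_add]
    have g1 : a ^ 2 ≤ 2 ^ i * a ^ 2 := le_mul_of_one_le_left (sq_nonneg a) h2i
    have g2 : √(2 ^ i) * (1 / √(n * T)) ≤ 2 ^ i * (1 / √(n * T)) :=
      mul_le_mul_of_nonneg_right hq1 hW
    linarith
  have hW2 : 0 ≤ a ^ 2 + 1 / √(n * T) := by positivity
  constructor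
  · rw [div_div, div_le_iff₀ (by positivity)] at h1
    have g : C' * (a ^ 2 + 1 / √(n * (T / 2 ^ i))) * (k * a * (T / 2 ^ i) * (β ^ 2 * n)) ≤
        C' * (2 ^ i * (a ^ 2 + 1 / √(n * T))) * (k * a * (T / 2 ^ i) * (β ^ 2 * n)) := by
      gcongr
    have e : C' * (2 ^ i * (a ^ 2 + 1 / √(n * T))) * (k * a * (T / 2 ^ i) * (β ^ 2 * n)) =
        k * β ^ 2 * C' * (a * n * T) * (a ^ 2 + 1 / √(n * T)) := by
      field_simp
    rw [e] at g
    have g0 : 0 ≤ k * β ^ 2 * C' * (a * n * T) * (a ^ 2 + 1 / √(n * T)) := by positivity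
    have g1 : 0 ≤ 4 ^ k * C' * (a * n * T) * (a ^ 2 + 1 / √(n * T)) := by positivity
    have g2 : (k * β ^ 2 * C' + 4 ^ k * C') * (a * n * T) * (a ^ 2 + 1 / √(n * T)) =
        k * β ^ 2 * C' * (a * n * T) * (a ^ 2 + 1 / √(n * T)) +
        4 ^ k * C' * (a * n * T) * (a ^ 2 + 1 / √(n * T)) := by ring
    rw [g2]
    linarith
  · rw [div_le_iff₀ (by positivity)] at h2
    have g : C' * (a ^ 2 + 1 / √(n * (T / 2 ^ i))) * 2 ^ i ≤
        C' * (2 ^ k * (a ^ 2 + 1 / √(n * T))) * 2 ^ k := by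
      gcongr
      exact hle.trans (mul_le_mul_of_nonneg_right h2k hW2)
    have e : C' * (2 ^ k * (a ^ 2 + 1 / √(n * T))) * 2 ^ k =
        4 ^ k * C' * (a ^ 2 + 1 / √(n * T)) := by
      rw [show (4 : ℝ) = 2 * 2 by norm_num, mul_pow]
      ring
    rw [e] at g
    have g0 : 0 ≤ k * β ^ 2 * C' * (a ^ 2 + 1 / √(n * T)) := by positivity
    rw [add_mul]
    linarith

/-- **`KStar` from the outputs of the blocks.** -/
theorem kstar_of {β : ℝ} (hβ : 0 < β)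
    (hK : ∀ Γ κ τ : ℝ, 0 ≤ Γ → 0 < κ → 0 < τ → τ ≤ 1 / 40 → KapC β Γ κ τ)
    (hL : ∀ Γ : ℝ, 0 ≤ Γ → LamC β Γ) : KStar β := by
  intro C1 L p0 c0 hC1 hL1 hp0 hc0 hc1
  obtain ⟨k, Λ, N, K, n1, hk, -, hΛ, hN, hkK, hK6, -, hsel⟩ :=
    ksel (p0 := p0) hβ.le hC1 hL1 hc0 hc1
  have hk1 : (1 : ℝ) ≤ k := by exact_mod_cast hk
  have hΛ1 : 1 ≤ Λ := by
    rw [hΛ]
    nlinarith
  obtain ⟨C', M', n2, hC', hM', hkl⟩ := kl_reg hβ hK hL Λ N K hΛ1 hN.ge hK6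
  have hev := ((tendsto_rpow_atTop (by norm_num : (0 : ℝ) < 1 / 10)).comp
    tendsto_natCast_atTop_atTop).eventually_ge_atTop ((2 : ℝ) ^ k)
  obtain ⟨n3, hn3⟩ := Filter.eventually_atTop.1 hev
  refine ⟨k * β ^ 2 * C' + 4 ^ k * C', k * M', max (max n1 n2) (max n3 1), by positivity,
    by positivity, ?_⟩
  intro n hn x a T Δ hx hxa ha hT hT2 hΔ h4 h5 hg hMΔ
  have hn1 : n1 ≤ n := ((le_max_left _ _).trans (le_max_left _ _)).trans hn
  have hn2 : n2 ≤ n := ((le_max_right _ _).trans (le_max_left _ _)).trans hn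
  have hn3' : n3 ≤ n := ((le_max_left _ _).trans (le_max_right _ _)).trans hn
  have hn4 : 1 ≤ n := ((le_max_right _ _).trans (le_max_right _ _)).trans hn
  have hnr : (1 : ℝ) ≤ n := by exact_mod_cast hn4
  have hn0 : (0 : ℝ) < n := by linarith
  have hx0 : 0 < x := (Real.rpow_pos_of_pos hn0 _).trans_le hx
  have ha0 : 0 < a := hx0.trans_le hxa
  have hT0 : 0 < T := (Real.rpow_pos_of_pos hn0 _).trans_le hT
  have hΔ0 : 0 < Δ := by
    have h6 : 0 < x * Δ := lt_of_lt_of_le (by positivity) hMΔ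
    exact (mul_pos_iff_of_pos_left hx0).1 h6
  obtain ⟨i, hik, r⟩ := hsel n hn1 x a T Δ hx0 hxa ha hT0 hT2 hΔ h4 h5 hg hΔ0
  have h2i : (1 : ℝ) ≤ 2 ^ i := one_le_pow₀ (by norm_num)
  have h2k : (2 : ℝ) ^ i ≤ 2 ^ k := pow_le_pow_right₀ (by norm_num) hik.le
  have hb := hn3 n hn3'
  simp only [Function.comp] at hb
  have hT9 : (n : ℝ) ^ (-(9 / 10) : ℝ) ≤ T / 2 ^ i := by
    rw [le_div_iff₀ (by positivity)]
    calc (n : ℝ) ^ (-(9 / 10) : ℝ) * 2 ^ i ≤ (n : ℝ) ^ (-(9 / 10) : ℝ) * (n : ℝ) ^ (1 / 10 : ℝ) := by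
          gcongr
          exact h2k.trans hb
      _ = (n : ℝ) ^ (-(4 / 5) : ℝ) := by
          rw [← Real.rpow_add hn0]
          norm_num
      _ ≤ T := hT
  have hTi : T / 2 ^ i ≤ T := div_le_self hT0.le h2i
  have hact : M' ≤ x * a * (2 * Δ / (k * a * (T / 2 ^ i))) * (T / 2 ^ i) := by
    have e : x * a * (2 * Δ / (k * a * (T / 2 ^ i))) * (T / 2 ^ i) = 2 * (x * Δ) / k := by
      field_simp
    rw [e, le_div_iff₀ (by positivity)]
    have : 0 < x * Δ := by positivity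
    linarith
  have key := hkl n hn2 x a (T / 2 ^ i) _ (hx.trans hxa) ha hT9 (hTi.trans hT2) r hact
  exact kst_num hC' ha0 hn0 hT0 hk hik key.1 key.2 hβ

end Vale.Agent.P146.U.H240
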