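import Mathlib

/-!
The numbers of the third coefficient for the deep functionals, with constants.
-/

namespace Vale.Agent.P146.U.H240

/-- **The numbers of a good bulk are small**: layers of the size `w² β² n / 2 = 1 / a`. -/
theorem nd_small {β τ a R A n lam w C : ℝ} (hτ : 0 < τ) (ha : 0 < a) (hA : 0 < A) (hn : 0 < n)
    (hw : w ^ 2 * (β ^ 2 / 2 * n) = 1 / a) (hlam : 0 < lam) (hR0 : 0 ≤ R)
    (hC1 : 1 ≤ C) (hCτ : (6 + β ^ 2) / τ ≤ C) (hR : C * √A * a ≤ √R)
    (hL : R * n ^ 2 / (2 * A) ≤ 2 * lam ^ 2) :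
    a * n / lam + (a * n / lam) ^ 2 + 1 / (w ^ 2 * lam) ≤ τ := by
  have hC : 0 < C := by linarith
  have hsA : 0 < √A := Real.sqrt_pos.2 hA
  have hsR : 0 < √R := lt_of_lt_of_le (by positivity) hR
  -- the lower bound of `lam`
  have h1 : √R * n ≤ 2 * √A * lam := by
    have h2 : (√R * n) ^ 2 ≤ (2 * √A * lam) ^ 2 := by
      rw [mul_pow, mul_pow, mul_pow, Real.sq_sqrt hR0, Real.sq_sqrt hA.le]
      rw [div_le_iff₀ (by positivity)] at hL
      linarith
    exact le_of_sq_le_sq h2 (by positivity)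
  -- the first number
  have h2 : a * n / lam ≤ 2 / C := by
    rw [div_le_div_iff₀ hlam hC]
    have h3 : C * √A * a * n ≤ 2 * √A * lam := (mul_le_mul_of_nonneg_right hR hn.le).trans h1
    have h4 : √A * (a * n * C) ≤ √A * (2 * lam) := by linarith
    exact le_of_mul_le_mul_left h4 hsA
  have h20 : 0 ≤ a * n / lam := by positivity
  have hC2 : 2 / C ≤ 2 := by
    rw [div_le_iff₀ hC]
    linarith
  have h3 : (a * n / lam) ^ 2 ≤ 4 / C := by
    calc (a * n / lam) ^ 2 = a * n / lam * (a * n / lam) := sq _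
      _ ≤ 2 / C * 2 := mul_le_mul h2 (h2.trans hC2) h20 (by positivity)
      _ = 4 / C := by ring
  -- the third number
  have hβ : 0 < β ^ 2 / 2 * n := by
    by_contra hh
    have h5 : 0 < 1 / a := by positivity
    rw [← hw] at h5
    have h6 : w ^ 2 * (β ^ 2 / 2 * n) ≤ 0 := mul_nonpos_of_nonneg_of_nonpos (sq_nonneg w)
      (not_lt.1 hh)
    linarith
  have hw2 : 0 < w ^ 2 := by
    rcases (sq_nonneg w).lt_or_eq with h5 | h5
    · exact h5
    · rw [← h5, zero_mul] at hw
      have : 0 < 1 / a := by positivity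
      linarith
  have h4 : 1 / (w ^ 2 * lam) ≤ β ^ 2 / C := by
    have e : 1 / (w ^ 2 * lam) = β ^ 2 / 2 * (a * n / lam) := by
      have e2 : w ^ 2 * (β ^ 2 / 2 * n) * a = 1 := by
        rw [hw]
        field_simp
      rw [div_eq_iff (by positivity)]
      have e3 : β ^ 2 / 2 * (a * n / lam) * (w ^ 2 * lam) = w ^ 2 * (β ^ 2 / 2 * n) * a := by
        field_simp
      rw [e3, e2]
    rw [e]
    calc β ^ 2 / 2 * (a * n / lam) ≤ β ^ 2 / 2 * (2 / C) :=
          mul_le_mul_of_nonneg_left h2 (by positivity)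
      _ = β ^ 2 / C := by ring
  calc a * n / lam + (a * n / lam) ^ 2 + 1 / (w ^ 2 * lam) ≤ 2 / C + 4 / C + β ^ 2 / C := by
        linarith
    _ = (6 + β ^ 2) / C := by ring
    _ ≤ τ := by
        rw [div_le_iff₀ hτ] at hCτ
        rw [div_le_iff₀ hC]
        linarith

end Vale.Agent.P146.U.H240
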