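import Vale.Agent.P146.U.H240.Xw
import Vale.Agent.P146.U.H240.Num
import Vale.Agent.P146.U.H816_SkNS

/-!
The inputs of the kappa inequality for the deep systems with `w² β² n / 2 = 1 / a`: the property
(K) on the good bulks and the sum of the functional of the bulks.
-/

open MeasureTheory ProbabilityTheory

namespace Vale.Agent.P146.U.H240

open Vale.Agent.P157.Lv Vale.Agent.P146.H425 Vale.Agent.P146.H325
open Vale.Agent.P146.H332 hiding Et NN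
open Vale.Agent.P146.R1 hiding Et Et4 Et4_123 Et4_124 Et4_add Et4_const Et4_const_mul Et4_cs
  Et4_mono Et4_nonneg Et4_sub Et_add Et_const Et_const_mul Et_cs Et_fst_eq Et_jensen Et_mono
  Et_nonneg Et_sub Et_weight Et_zero Eu Eu4 Eu4_123 Eu4_124 Eu4_add Eu4_cond Eu4_const_mul
  Eu4_iter Eu4_mono Eu4_nonneg Eu4_one_eq Eu4_one_eq' Eu4_one_pos Eu4_weight Eu_add Eu_const_mul
  Eu_fst Eu_fst_eq Eu_iter Eu_mono Eu_nonneg Eu_one Eu_one_eq Eu_one_pos Eu_weight Eu_zero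
  Eu_zero_one Lth Lth_zero Qt dn dn_pos e3_dn eg_Eu eg_Eu4
open Vale.Agent.P146.H785 (Ax)
open Vale.Agent.P146.U.R1C (Par En P2 Law2 Fo)
open Vale.Agent.P146.U.R1S
open Vale.Agent.P146.R1S (C8 C8_nonneg)
open Vale.Agent.P146.R1C (AvP kk NN)
open Vale.Agent.P146.H327 (Sb)

set_option linter.unusedSectionVars false

/-- **The property (K) on the good bulks.** -/
theorem kapG_w {β : ℝ} (hβ : 0 < β) {J : ℕ} {c0 C7 : ℝ} (hc0 : 0 < c0) (hC7 : 0 ≤ C7) :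
    ∃ τ κ D : ℝ, 0 < τ ∧ τ ≤ 1 / 40 ∧ 0 < κ ∧ 1 ≤ D ∧ ∀ {n : ℕ} {m : ℕ → ℝ} {h w a s A ρ : ℝ},
      0 < n → ∀ (hk : 0 < kk n β) (hE : Exs m J a), Lw β w n J m h →
      w ^ 2 * (β ^ 2 / 2 * n) = 1 / a → K7P β J c0 C7 w n m h → 1 / 2 ≤ s → s ≤ 1 →
      8 * β ^ 2 * a ^ 2 ≤ 1 → 0 < A → 0 ≤ ρ → D * √A * a ≤ √(2 * ρ / (β ^ 2 * n)) →
      H191.KapG (deepCS n hk (fun _ => w) hE) s τ κ (NN n β ρ / (2 * A))
        (XDw β w a s h n J m) := by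
  have hΓ : (0 : ℝ) ≤ 2 + 2 * (J : ℝ) := by positivity
  obtain ⟨τ, κ, hτ, hτ1, hκ, hG⟩ := H95.kapG_T3B (β := β) (c0 := c0)
    (C8 := C8 (2 + 2 * (J : ℝ)) (β ^ 2) C7) (Γ := 4 + 2 * (J : ℝ)) hβ hc0
    (C8_nonneg hΓ (sq_nonneg β) hC7)
  refine ⟨τ, κ, max 1 ((6 + β ^ 2) / τ), hτ, hτ1, hκ, le_max_left _ _, ?_⟩
  intro n m h w a s A ρ hn hk hE H hw hK7 hs hs1 h8 hA hρ hR
  have hnp : (0 : ℝ) < n := by exact_mod_cast hn
  have hn1 : (1 : ℝ) ≤ n := by exact_mod_cast hn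
  have ha := hE.x0
  have hkk : kk n β ^ 2 * n = β ^ 2 := kk_two hn β
  have hT3 := t3B_w (s := s) hn hC7 hk hE H (by linarith) hs1 (by rw [hkk]; exact h8) hK7
  rw [hkk] at hT3
  refine hG hn1 hkk hs hs1 (Cum.fn_deepCS hk (fun _ => w) hE s) hT3 fun lam hl hln hL => ?_
  have e : NN n β ρ / (2 * A) = 2 * ρ / (β ^ 2 * n) * (n : ℝ) ^ 2 / (2 * A) := by
    congr 1
    unfold NN
    field_simp
  rw [e] at hL
  exact nd_small hτ ha hA hnp hw hl (by positivity) (le_max_left _ _) (le_max_right _ _) hR hL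

end Vale.Agent.P146.U.H240
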