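import Vale.Agent.P146.U.Ex3f

/-!
The tail of the laws with exponents in `[x, 2 x]`: the mean squared gradient at the switching time
`1 - T` is at most `C N x⁴ (x² / T)^(1/1000) / T` for `T ≥ x²` (for the exponent `b ∈ [x, 2 x]` on
`[1 - T, 1]`, so in particular for the pure law `b = x`).
-/

open MeasureTheory ProbabilityTheory

namespace Vale.Agent.P146.U.H240

open Vale.Agent.P157.Lv Vale.Agent.P146.H425 Vale.Agent.P146.R1 Vale.Agent.P146.U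

set_option linter.unusedSectionVars false

variable {κ : Type} [Fintype κ] {F X : (κ → ℝ) → ℝ} {D : κ → (κ → ℝ) → ℝ}
  {B L x a b G M σ T N : ℝ}

/-- In the pure law the mean squared gradient is nonincreasing in `T`. -/
lemma ST_self_anti (h : C11 F D B L) (hx : 0 < x) {T T' : ℝ} (hT' : 0 ≤ T') (hTT : T' ≤ T)
    (hT : T ≤ 1) : ST x x T F D ≤ ST x x T' F D := by
  have hXC := h.W' hx (√T')
  have hss : √(T - T') ^ 2 + √T' ^ 2 = √T ^ 2 := by
    rw [Real.sq_sqrt (by linarith), Real.sq_sqrt hT', Real.sq_sqrt (by linarith)]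
    ring
  have hcc : √(1 - T) ^ 2 + √(T - T') ^ 2 = √(1 - T') ^ 2 := by
    rw [Real.sq_sqrt (by linarith), Real.sq_sqrt (by linarith), Real.sq_sqrt (by linarith)]
    ring
  have e1 : W x (√(T - T')) (W x (√T') F) = W x (√T) F := by
    funext w
    exact W_W h.lip h.B0 hx hss w
  have e2 : G2 x (√(T - T')) (W x (√T') F) (DW x (√T') F D) = G2 x (√T) F D := by
    funext w
    unfold G2
    refine Finset.sum_congr rfl fun e _ => ?_
    congr 1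
    exact (DW_step h hx hss e w).symm
  unfold ST Ps EE
  rw [← e2, ← e1]
  refine le_trans (Mn_mono (lipW hXC hx _) (eg_G2' hXC hx _)
    (eg_Mn (hXC.lip.lip h.B0) hXC.eg_G2 x _) (fun w => G2_le_Mn hXC x _ w) x _ 0) (le_of_eq ?_)
  exact Mn_Mn (hXC.lip.lip h.B0) hXC.eg_G2 hx hcc 0

/-- the lower bound of the share -/
lemma l_lowb (q : Par3 G x M σ T) (h : C11 F D B L) (hc : Cv F) (hU : UP G x M F)
    (hb : x ≤ b) (hb2 : b ≤ 2 * x) (hcon : G / σ ^ 2 < T * ST x b T F D) :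
    x / 16 * G * σ ^ 38 ≤
      Q3 x (x * σ ^ 40) (x * σ ^ 2) (T / 2) (T / 2) F - PT x (x * σ ^ 2) (T / 2) F := by
  have hx := q.hx
  have hG := q.hG
  have hσ0 := q.σ0
  have hσ1 := q.σ1
  have hσ4 := q.hσ4
  have hT0 := q.T0
  have hxT := q.xT
  have hx2 : 0 < x ^ 2 := by positivity
  have e2 : T / 2 + T / 2 = T := by ring
  have h2 := Q3_low (a := x * σ ^ 40) (τ := T / 2) (T := T / 2) h hc hx
    hb (hb2.trans q.xy) (by linarith [q.ya, q.xy]) (by positivity)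
    (by positivity) (by rw [e2]; linarith [q.hT1])
  rw [e2] at h2
  have h3 := hU.bd hG hx q.hM.le hσ1 (b := x * σ ^ 2) (T := T / 2) (by linarith [q.xy])
    (by linarith [q.hT1]) (by linarith) (by rw [← q.hT]; linarith)
  have h4 : x * σ ^ 40 / 2 ≤ x * σ ^ 40 - b := by
    have : 4 ≤ σ ^ 40 := by
      calc (4 : ℝ) ≤ σ := hσ4
        _ ≤ σ ^ 40 := le_self_pow₀ hσ1 (by norm_num)
    nlinarith
  have h5 : x / 8 * G * σ ^ 38 ≤
      (x * σ ^ 40 - b) / 2 * (T / 2 * ST x b T F D) := by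
    have h6 : x * σ ^ 40 / 4 * (1 / 2 * (G / σ ^ 2)) ≤
        (x * σ ^ 40 - b) / 2 * (T / 2 * ST x b T F D) := by
      refine mul_le_mul (by linarith) (by linarith) (by positivity) ?_
      have : 0 ≤ x * σ ^ 40 := by positivity
      linarith
    refine le_trans (le_of_eq ?_) h6
    field_simp
    norm_num
  have h6 : M * (G * (x * σ ^ 2) * ((x * σ ^ 2) / x) ^ 5 * σ ^ 20) ≤
      x / 16 * G * σ ^ 38 := by
    have e3 : (x * σ ^ 2) / x = σ ^ 2 := by field_simp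
    rw [e3]
    have e4 : M * (G * (x * σ ^ 2) * (σ ^ 2) ^ 5 * σ ^ 20) =
        (x * G * σ ^ 32) * M := by ring
    have e5 : x / 16 * G * σ ^ 38 = (x * G * σ ^ 32) * (σ ^ 6 / 16) := by
      ring
    rw [e4, e5]
    refine mul_le_mul_of_nonneg_left ?_ (by positivity)
    have : σ ≤ σ ^ 6 := le_self_pow₀ hσ1 (by norm_num)
    linarith [q.hσM]
  have e7 : x / 8 * G * σ ^ 38 = x / 16 * G * σ ^ 38 + x / 16 * G * σ ^ 38 := by ring
  rw [e7] at h5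
  linarith

/-- **The selection.** -/
lemma l_selb (q : Par3 G x M σ T) (h : C11 F D B L) (hc : Cv F) (hU : UP G x M F)
    (hb : x ≤ b) (hb2 : b ≤ 2 * x) (hcon : G / σ ^ 2 < T * ST x b T F D) :
    ∃ (a t Δ : ℝ) (j i : ℕ), a = 4 ^ j * (x * σ ^ 40) ∧ (4 : ℝ) ^ j ≤ σ ^ 261 ∧
      ((2 : ℝ) ^ mG) ^ i ≤ σ ^ 261 ∧ t = T / 2 / lG ^ i ∧
      Δ = Q3 x a (x * σ ^ 2) (T / 2) t F - Q3 x x (x * σ ^ 2) (T / 2) t F ∧
      Q3 x (4 * a) (x * σ ^ 2) (T / 2) t F - Q3 x x (x * σ ^ 2) (T / 2) t F ≤ 4 ^ 8 * Δ ∧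
      Q3 x a (x * σ ^ 2) (T / 2) (t / lG) F - Q3 x x (x * σ ^ 2) (T / 2) t F ≤ 1 / 2 * Δ ∧
      x / 16 * G * σ ^ 38 * 4 ^ (8 * j) ≤ Δ * 2 ^ i ∧
      Δ ≤ a / 2 * t * mm G x M σ T a := by
  have hx := q.hx
  have hG := q.hG
  have hσ0 := q.σ0
  have hσ1 := q.σ1
  have hM := q.hM
  have hT0 := q.T0
  have hT1 := q.hT1
  have hy0 := q.y0
  have hl := lG_pos
  have hl1 := lG_one
  have hA : 0 < x / 16 * G * σ ^ 38 := by positivity
  have h00 := l_lowb q h hc hU hb hb2 hcon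
  obtain ⟨j, i, hj, hi, hΔ, h4, hhalf⟩ := grid_max
    (f := fun j i => Q3 x (4 ^ j * (x * σ ^ 40)) (x * σ ^ 2) (T / 2) (T / 2 / lG ^ i) F -
      PT x (x * σ ^ 2) (T / 2) F) mG_ne hA
    (by simpa using h00) (fun j i => l_up q h hc hU j i)
  have hE : 16 * M * σ ^ 260 ≤ σ ^ 261 := by
    have : σ ^ 261 = σ * σ ^ 260 := by ring
    rw [this]
    exact mul_le_mul_of_nonneg_right q.hσM (by positivity)
  have hj4 : (1 : ℝ) ≤ 4 ^ j := one_le_pow₀ (by norm_num)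
  have hli : 1 ≤ lG ^ i := one_le_pow₀ hl1
  have ht0 : 0 < T / 2 / lG ^ i := by positivity
  have htT : T / 2 / lG ^ i ≤ T / 2 := div_le_self (by positivity) hli
  have hTl : T / 2 / lG ^ (i + 1) = T / 2 / lG ^ i / lG := by
    rw [pow_succ, div_div, div_div, div_div]
  have haj' : 4 ^ (j + 1) * (x * σ ^ 40) = 4 * (4 ^ j * (x * σ ^ 40)) := by
    rw [pow_succ]
    ring
  have haa : x * σ ^ 40 ≤ 4 ^ j * (x * σ ^ 40) := le_mul_of_one_le_left (by positivity) hj4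
  have hya : 2 * (x * σ ^ 2) ≤ 4 ^ j * (x * σ ^ 40) := q.ya.trans haa
  have hQx : Q3 x x (x * σ ^ 2) (T / 2) (T / 2 / lG ^ i) F = PT x (x * σ ^ 2) (T / 2) F :=
    Q3_x h hx hy0 ht0.le (by linarith)
  rw [haj'] at h4
  rw [hTl] at hhalf
  refine ⟨4 ^ j * (x * σ ^ 40), T / 2 / lG ^ i,
    Q3 x (4 ^ j * (x * σ ^ 40)) (x * σ ^ 2) (T / 2) (T / 2 / lG ^ i) F -
      PT x (x * σ ^ 2) (T / 2) F, j, i, rfl, hj.trans hE, hi.trans hE, rfl, ?_, ?_, ?_, ?_,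
    l_up1 q h hc hU hya ht0.le htT⟩
  · rw [hQx]
  · rw [hQx]
    exact h4
  · rw [hQx]
    exact hhalf
  · rwa [div_le_iff₀ (by positivity)] at hΔ

/-- **The L-side**, for every exponent `b ∈ [x, 2 x]` on the window. -/
theorem lsideb (q : Par3 G x M σ T) (hN : 0 < N) (hGN : G = N * x ^ 4) (hNx : 1 ≤ N * x ^ 6)
    (h : C11 F D B L) (hc : Cv F) (hU : UP G x M F) {Λ1 CL : ℝ}
    (hCL : 0 < CL) (hL : HL N x Λ1 CL F) (hσΛ : 16 * Λ1 ≤ σ) (hσC : 16 * CL ≤ σ)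
    (hb : x ≤ b) (hb2 : b ≤ 2 * x) : T * ST x b T F D ≤ G / σ ^ 2 := by
  by_contra hcon
  push Not at hcon
  obtain ⟨a, t, Δ, j, i, hja, hj, hi, ht, hΔd, h4, hhalf, hΔ, hΔu⟩ := l_selb q h hc hU hb hb2 hcon
  have hx := q.hx
  have hG := q.hG
  have hσ0 := q.σ0
  have hσ1 := q.σ1
  have hl := lG_pos
  have hT0 := q.T0
  have hj4 : (1 : ℝ) ≤ 4 ^ j := one_le_pow₀ (by norm_num)
  have haa : x * σ ^ 40 ≤ a := by
    rw [hja]
    exact le_mul_of_one_le_left (by positivity) hj4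
  have ha0 : 0 < a := lt_of_lt_of_le (by positivity) haa
  have hli : 1 ≤ lG ^ i := one_le_pow₀ lG_one
  have ht0 : 0 < t := by
    rw [ht]
    exact div_pos (half_pos hT0) (by linarith)
  have htT : t ≤ T / 2 := by
    rw [ht]
    exact div_le_self (by positivity) hli
  have h301 := d_a hx hσ0 hja hj
  have hlow := d_T q hi ht
  have hx2 : 0 < x ^ 2 := by positivity
  have hxt : x ^ 2 ≤ t := by
    have h3 : (2 : ℝ) ≤ σ ^ 1738 := by
      calc (2 : ℝ) ≤ σ := by linarith [q.hσ4]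
        _ ≤ σ ^ 1738 := le_self_pow₀ hσ1 (by norm_num)
    have := mul_le_mul_of_nonneg_left h3 hx2.le
    linarith
  have h2i : (0 : ℝ) < 2 ^ i := by positivity
  have hΔ0 : 0 ≤ Δ := by
    have h5 : 0 ≤ Δ * 2 ^ i := le_trans (by positivity) hΔ
    exact nonneg_of_mul_nonneg_left h5 h2i
  have hya : 2 * (x * σ ^ 2) ≤ a := q.ya.trans haa
  obtain ⟨hA1, hA2⟩ := d_act q hGN hNx (d_i hσ0 hi) hja hΔ0 hσΛ hΔ
  have hρ : Δ / (a * N * t) ≤ x ^ 2 := by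
    refine le_trans ?_ (d_ρ q hN hGN ha0 h301)
    rw [div_le_div_iff₀ (by positivity) hN]
    have hm0 : 0 ≤ mm G x M σ T a := by
      have := q.hM
      unfold mm
      positivity
    have h5 : Δ * N ≤ (a / 2 * t * mm G x M σ T a) * N := mul_le_mul_of_nonneg_right hΔu hN.le
    have h6 : 0 ≤ mm G x M σ T a * (a * N * t) := mul_nonneg hm0 (by positivity)
    have e : (a / 2 * t * mm G x M σ T a) * N = mm G x M σ T a * (a * N * t) / 2 := by ring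
    rw [e] at h5
    linarith
  have hLL := hL a (x * σ ^ 2) (T / 2) t Δ (by linarith [q.xy]) (by linarith [q.y0])
    (d_a2 q ha0.le h301) (by positivity) (by linarith [q.hT1]) hxt (by linarith [q.hT1])
    hΔd h4 hhalf hA1 hA2
  exact d_fin q hN hNx hCL hσC hlow h301 hρ hLL

/-- **The gradient beyond the window `x² s^2000`.** -/
lemma e_gradb (h : C11 F D B L) (hc : Cv F) {Λ1 CL s : ℝ} (q : HE N x M Λ1 CL s F)
    {t : ℝ} (ht : x ^ 2 * s ^ 2000 ≤ t) (ht1 : t ≤ 1 / 2) (hb : x ≤ b) (hb2 : b ≤ 2 * x) :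
    t * ST x b t F D ≤ N * x ^ 4 * (x ^ 2 / t) ^ (1 / 1000 : ℝ) := by
  obtain ⟨hN, hNx, hx, hx1, hM, hCL, hU, hL, hs4, hsM, hsΛ, hsC⟩ := q
  have hs0 : 0 < s := by linarith
  have hx2 : 0 < x ^ 2 := by positivity
  have hx4 : 0 < x ^ 4 := by positivity
  have hG0 : 0 < N * x ^ 4 := mul_pos hN hx4
  have ht0 : 0 < t := (mul_pos hx2 (pow_pos hs0 _)).trans_le ht
  have htx : 0 ≤ t / x ^ 2 := div_nonneg ht0.le hx2.le
  obtain ⟨σ, hσ⟩ : ∃ σ, σ = (t / x ^ 2) ^ (1 / 2000 : ℝ) := ⟨_, rfl⟩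
  have hσ2 : σ ^ 2000 = t / x ^ 2 := by
    rw [hσ]
    exact rpow_2000 htx
  have hsσ : s ≤ σ := by
    have h1 : s ^ 2000 ≤ t / x ^ 2 := by
      rw [le_div_iff₀ hx2, mul_comm]
      exact ht
    have h2 : (s ^ 2000) ^ (1 / 2000 : ℝ) ≤ (t / x ^ 2) ^ (1 / 2000 : ℝ) :=
      Real.rpow_le_rpow (pow_nonneg hs0.le _) h1 (by norm_num)
    rw [rpow_inv_2000 hs0.le, ← hσ] at h2
    exact h2
  have htσ : t = x ^ 2 * σ ^ 2000 := by
    rw [hσ2]
    exact (mul_div_cancel₀ t hx2.ne').symm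
  have h1 := lsideb (x := x) (G := N * x ^ 4) (M := M) (σ := σ) (T := t) ⟨hG0, hx, by linarith, hM,
    hs4.trans hsσ, hsM.trans hsσ, htσ, ht1⟩ hN rfl hNx h hc hU hCL hL (hsΛ.trans hsσ)
    (hsC.trans hsσ) hb hb2
  refine h1.trans (le_of_eq ?_)
  have e : (x ^ 2 / t) ^ (1 / 1000 : ℝ) = 1 / σ ^ 2 := by
    have e1 : x ^ 2 / t = (t / x ^ 2)⁻¹ := by rw [inv_div]
    have e2 : (t / x ^ 2) ^ (1 / 1000 : ℝ) = σ ^ 2 := by
      rw [hσ]
      generalize t / x ^ 2 = v at htx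
      rw [← Real.rpow_natCast, ← Real.rpow_mul htx]
      norm_num
    rw [e1, Real.inv_rpow htx, e2, one_div]
  rw [e]
  ring

end Vale.Agent.P146.U.H240
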