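import Vale.Agent.P146.U.H240.Kch
import Vale.Agent.P146.U.H95_KapD
import Vale.Agent.P146.U.H546_Rb2
import Vale.Agent.P146.H401.K7S

/-!
The third coefficient of the deep systems on a bulk, layers of any size.
-/

open MeasureTheory ProbabilityTheory

namespace Vale.Agent.P146.U.H240

open Vale.Agent.P157.Lv Vale.Agent.P146.H425 Vale.Agent.P146.H325
open Vale.Agent.P146.H332 hiding Et
open Vale.Agent.P146.R1 hiding Et Et4 Et4_123 Et4_124 Et4_add Et4_const Et4_const_mul Et4_cs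
  Et4_mono Et4_nonneg Et4_sub Et_add Et_const Et_const_mul Et_cs Et_fst_eq Et_jensen Et_mono
  Et_nonneg Et_sub Et_weight Et_zero Eu Eu4 Eu4_123 Eu4_124 Eu4_add Eu4_cond Eu4_const_mul
  Eu4_iter Eu4_mono Eu4_nonneg Eu4_one_eq Eu4_one_eq' Eu4_one_pos Eu4_weight Eu_add Eu_const_mul
  Eu_fst Eu_fst_eq Eu_iter Eu_mono Eu_nonneg Eu_one Eu_one_eq Eu_one_pos Eu_weight Eu_zero
  Eu_zero_one Lth Lth_zero Qt dn dn_pos e3_dn eg_Eu eg_Eu4
open Vale.Agent.P146.R1S (C8)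
open Vale.Agent.P146.R1C hiding Ca Cd En En_eq Ew Ew_eq Gb Nd P0 P0_sw P1 P1_sw P2 P2_sw P3 P3_sw
  Par Sa Sd dens
open Vale.Agent.P146.U.R1S Vale.Agent.P146.U.H95
open Vale.Agent.P146.H401 (gv)
open Vale.Agent.P146.H722 (nuv)
open Vale.Agent.P146.H785 (Ax)
open Vale.Agent.P146.H327 (Sb)

set_option linter.unusedSectionVars false

section one

variable {β x w h s : ℝ} {n J : ℕ} {m : ℕ → ℝ}

/-- the functional of the bulk -/
noncomputable def XDw (β w x s h : ℝ) (n J : ℕ) (m : ℕ → ℝ) (b b' : Fin n)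
    (z : Pair n → ℝ) : ℝ :=
  AvP s (row b ∪ row b') (Ax x (√(1 - s)) (Fz n β m (fun _ => w) J)
    (DSw β w n J (Sb b) m h)) z

/-- the numbers -/
noncomputable def NDw (w x : ℝ) (n : ℕ) (lam : ℝ) : ℝ :=
  x * n / lam + (x * n / lam) ^ 2 + 1 / (w ^ 2 * lam)

/-- **(K7)** at one size of the layers. -/
def K7P (β : ℝ) (J : ℕ) (c0 C7 w : ℝ) (n : ℕ) (m : ℕ → ℝ) (h : ℝ) : Prop :=
  ∀ {b : Fin n} {v : Fin n → ℝ} {lam : ℝ}, ∑ j, v j ^ 2 = 1 → v b = 0 →
    0 < lam → ∀ z : Pair n → ℝ,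
    AvP 1 (row b) (fun u => iteratedDeriv 4
      (fun r : ℝ => Fz n β m (fun _ => w) J (u + r • nuv b v)) 0) z ≤
    kk n β ^ 4 * (-c0 * lam ^ 2 + C7 * (AvP 1 (row b) (fun u =>
      TD (lz (kk n β) SkS) m (fun _ => w) (H325.av (kk n β) SkS (gv v lam)) J u) z +
      lam ^ 2 * (1 / (w ^ 2 * lam) + ∑ l ∈ Finset.range J,
        dsec (lz (kk n β) (Sb b)) m (fun _ => w) J l h z)))

/-- the root law at the time one -/
lemma mu_one {k : ℝ} {σ : ℕ → ℝ} (hk : 0 < k) (hE : Exs m J x) (g : (Fin n → ℤˣ) → ℝ)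
    (u : Pair n → ℝ) :
    ∑ a, (deepCS n hk σ hE).mu 1 u a * g a = TD (lz k SkS) m σ (H325.av k SkS g) J u := by
  have h1 : ∑ a, (deepCS n hk σ hE).mu 1 u a * g a = pA k SkS m σ J x 1 g u :=
    (pA_pmu hE g u).symm
  rw [h1]
  unfold pA
  rw [sub_self, Real.sqrt_zero, H401.Ax_s0]

/-- **The third coefficient of the deep systems on a bulk.** -/
theorem t3B_w {c0 C7 : ℝ} (hn : 0 < n) (hC7 : 0 ≤ C7) (hk : 0 < kk n β)
    (hE : Exs m J x) (H : Lw β w n J m h)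
    (hs : 0 < s) (hs1 : s ≤ 1) (h8 : 8 * (kk n β ^ 2 * n) * x ^ 2 ≤ 1)
    (hK7 : K7P β J c0 C7 w n m h) :
    T3B (deepCS n hk (fun _ => w) hE) s c0
      (C8 (2 + 2 * J) (kk n β ^ 2 * n) C7) (NDw w x n) (XDw β w x s h n J m) := by
  intro b b' z v lam hbb hv hb hb' hl hln
  have hx := hE.x0
  have hDS0 := H.DS_nonneg hn (abs_Sb' b)
  have hsd : 0 ≤ 1 / (w ^ 2 * lam) := by positivity
  have he : EG fun Z => 1 / (w ^ 2 * lam) + DSw β w n J (Sb b) m h Z :=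
    (EG.const _).add (H.eg_DS (Sb b))
  have h1 := t3d (b' := b') (Cum.root_deep (n := n) hk (fun _ => w) hE) hv hb hb' hbb
    hs hs1 hl hln h8 (c0 := c0) hC7 he
    (fun Z => add_nonneg hsd (hDS0 Z)) (fun Z => by
      have e : (fun u => ∑ σ, (deepCS n hk (fun _ => w) hE).mu 1 u σ *
          ((∑ i, v i * H325.sp σ i) ^ 2 - lam) ^ 2) = fun u =>
          TD (lz (kk n β) SkS) m (fun _ => w) (H325.av (kk n β) SkS (gv v lam)) J u :=
        funext fun u => mu_one hk hE (gv v lam) u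
      rw [e]
      exact hK7 hv hb hl Z) z
  have h2 : AvP s (row b ∪ row b') (Ax x (√(1 - s))
      (deepCS n hk (fun _ => w) hE).F (fun Z => 1 / (w ^ 2 * lam) +
        DSw β w n J (Sb b) m h Z)) z =
      1 / (w ^ 2 * lam) + XDw β w x s h n J m b b' z := by
    have e2 := Xi_add (S := deepCS n hk (fun _ => w) hE) (s := s)
      (R := row b ∪ row b') (EG.const (1 / (w ^ 2 * lam))) (H.eg_DS (Sb b)) z
    have e3 := Xi_const (S := deepCS n hk (fun _ => w) hE) (s := s)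
      (R := row b ∪ row b') (1 / (w ^ 2 * lam)) z
    rw [e3] at e2
    exact e2
  rw [h2] at h1
  refine h1.trans ?_
  have hk0 := hk.le
  have hp : 0 ≤ (√s * kk n β) ^ 3 := by positivity
  refine mul_le_mul_of_nonneg_left (le_of_eq ?_) hp
  unfold NDw Vbr
  ring

lemma XDw_nonneg (hn : 0 < n) (hk : 0 < kk n β)
    (hE : Exs m J x) (H : Lw β w n J m h) (b b' : Fin n)
    (z : Pair n → ℝ) : 0 ≤ XDw β w x s h n J m b b' z :=
  Xi_nonneg (S := deepCS n hk (fun _ => w) hE) (s := s)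
    (R := row b ∪ row b') (H.eg_DS (Sb b)) (H.DS_nonneg hn (abs_Sb' b)) z

lemma eg_XDw (hk : 0 < kk n β) (hE : Exs m J x)
    (H : Lw β w n J m h) (b b' : Fin n) :
    EG (XDw β w x s h n J m b b') :=
  eg_AvP (eg_Ax (deepCS n hk (fun _ => w) hE).c11 (H.eg_DS (Sb b)) x _) s _

end one

end Vale.Agent.P146.U.H240
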