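import Vale.Agent.P146.U.Ex1
import Vale.Agent.P146.H941.Deep

/-!
Comparison of the two-level functionals of two functions which differ by a bounded function, and
of the increments which enter a regular datum.
-/

open MeasureTheory ProbabilityTheory

namespace Vale.Agent.P146.U.H240

open Vale.Agent.P157.Lv Vale.Agent.P146.H425 Vale.Agent.P146.U

set_option linter.unusedSectionVars false

variable {κ : Type} [Fintype κ] {F G : (κ → ℝ) → ℝ} {D D' : κ → (κ → ℝ) → ℝ}
  {B B' L L' x b c s r : ℝ}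

/-- one layer -/
lemma W_comp {B B' : ℝ} (h : LipB F B) (hB : 0 ≤ B) (h' : LipB G B') (hB' : 0 ≤ B') (hx : 0 < x)
    (h0 : ∀ z, F z ≤ G z) (h1 : ∀ z, G z ≤ F z + r) (z : κ → ℝ) :
    W x s F z ≤ W x s G z ∧ W x s G z ≤ W x s F z + r := by
  refine ⟨H941.W_mono h hB h' hB' hx h0 z, ?_⟩
  have hl : LipB (fun z => F z + r) B := fun y w => by
    have := h y w
    rwa [add_sub_add_right_eq_sub]
  rw [← H941.W_add_const h hB hx]
  exact H941.W_mono h' hB' hl hB hx h1 z

/-- **The two-level functionals of comparable functions are comparable.** -/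
theorem PP_comp (h : C11 F D B L) (h' : C11 G D' B' L') (hx : 0 < x) (hb : 0 < b)
    (h0 : ∀ z, F z ≤ G z) (h1 : ∀ z, G z ≤ F z + r) (c s : ℝ) :
    PP x b c s F ≤ PP x b c s G ∧ PP x b c s G ≤ PP x b c s F + r := by
  have k := W_comp (s := s) h.lip h.B0 h'.lip h'.B0 hb h0 h1
  exact W_comp (s := c) (h.W' hb s).lip h.B0 (h'.W' hb s).lip h'.B0 hx (fun z => (k z).1)
    (fun z => (k z).2) 0

end Vale.Agent.P146.U.H240
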