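import Vale.Agent.P146.U.H240.T3w
import Vale.Agent.P146.U.H706_D4b
import Vale.Agent.P146.U.H425_FoN

/-!
The sum over the pairs of sites of the second differences, two rows being averaged.
-/

open MeasureTheory ProbabilityTheory

namespace Vale.Agent.P146.U.H240

open Vale.Agent.P157.Lv Vale.Agent.P146.H425 Vale.Agent.P146.H325
open Vale.Agent.P146.H332 hiding Et
open Vale.Agent.P146.R1 hiding Et Et4 Et4_123 Et4_124 Et4_add Et4_const Et4_const_mul Et4_cs
  Et4_mono Et4_nonneg Et4_sub Et_add Et_const Et_const_mul Et_cs Et_fst_eq Et_jensen Et_mono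
  Et_nonneg Et_sub Et_weight Et_zero Eu Eu4 Eu4_123 Eu4_124 Eu4_add Eu4_cond Eu4_const_mul
  Eu4_iter Eu4_mono Eu4_nonneg Eu4_one_eq Eu4_one_eq' Eu4_one_pos Eu4_weight Eu_add Eu_const_mul
  Eu_fst Eu_fst_eq Eu_iter Eu_mono Eu_nonneg Eu_one Eu_one_eq Eu_one_pos Eu_weight Eu_zero
  Eu_zero_one Lth Lth_zero Qt dn dn_pos e3_dn eg_Eu eg_Eu4
open Vale.Agent.P146.U.R1S
open Vale.Agent.P146.H785 (Ax)
open Vale.Agent.P146.U.R1C (Par En Ew P2 P3 Law2)
open Vale.Agent.P146.R1C (AvP kk lf)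
open Vale.Agent.P146.H327 (Sb)
open Vale.Agent.P146.H712 (Av)

set_option linter.unusedSectionVars false

section xsum

variable {β w : ℝ} {n J : ℕ} {m : ℕ → ℝ} {h : ℝ} {q : Par} {ε e1 : ℝ}

/-- **The sum over the pairs of sites of the second differences, two rows being averaged.** -/
theorem x_sum_w (H : Lw β w n J m h) (hn : 0 < n) (hq : q.Ok) (hε : 0 ≤ ε)
    (hL : Law2 n ε q (Fz n β m (fun _ => w) J))
    (hs : ∑ b : Fin n, R1.Et q.x q.θ q.η q.t0 q.t1 q.s1 (Fz n β m (fun _ => w) J)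
      (fun _ _ z => Ax q.x (√(1 - q.s1)) (Fz n β m (fun _ => w) J) (DSw β w n J (Sb b) m h) z) ≤
        e1 * n) :
    ∑ b, ∑ b' ∈ Finset.univ.erase b, En q (Fz n β m (fun _ => w) J) (fun u =>
        XDw β w q.x q.s1 h n J m b b' (P2 q u)) ≤ (n : ℝ) ^ 2 * (2 * e1 + ε) := by
  have hnp : (0 : ℝ) < n := Nat.cast_pos.2 hn
  have hV := c11_FD (σ := fun _ => w) (c11_lz (kk n β) (SkS (n := n))) J H.pos
  have hA : ∀ b : Fin n, EG (Ax q.x (√(1 - q.s1)) (Fz n β m (fun _ => w) J)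
      (DSw β w n J (Sb b) m h)) := fun b => eg_Ax hV (H.eg_DS (Sb b)) _ _
  have hB : ∀ (b : Fin n) z, 0 ≤ Ax q.x (√(1 - q.s1)) (Fz n β m (fun _ => w) J)
      (DSw β w n J (Sb b) m h) z ∧ Ax q.x (√(1 - q.s1)) (Fz n β m (fun _ => w) J)
      (DSw β w n J (Sb b) m h) z ≤ 1 := fun b z =>
    Ax_bd hV (H.eg_DS (Sb b)) (H.DS_nonneg hn (abs_Sb' b)) (H.DS_le hn (abs_Sb' b)) _ _ z
  obtain ⟨f, hf⟩ : ∃ f : Fin n → (K4 (Pair n) → ℝ) → ℝ, f = fun b u => Ax q.x (√(1 - q.s1))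
      (Fz n β m (fun _ => w) J) (DSw β w n J (Sb b) m h) (P2 q u) := ⟨_, rfl⟩
  have e : ∀ b b' : Fin n, (fun u => XDw β w q.x q.s1 h n J m b b' (P2 q u)) =
      Av (lf (row b ∪ row b')) (f b) := fun b b' => by
    rw [hf]
    exact funext fun u => (R1C.Av_lf_P2 hq (hA b) _ u).symm
  simp only [e]
  have hf1 : ∀ b, EG (f b) := fun b => by
    rw [hf]
    exact H712.eg_P2 (hA b)
  have hf2 : ∀ b u, 0 ≤ f b u := fun b u => by
    rw [hf]
    exact (hB b _).1
  have hf3 : ∀ b u, f b u ≤ 1 := fun b u => by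
    rw [hf]
    exact (hB b _).2
  have hs' : ∑ b : Fin n, En q (Fz n β m (fun _ => w) J) (f b) ≤ e1 * n := by
    rw [hf]
    refine le_trans (le_of_eq (Finset.sum_congr rfl fun b _ => ?_)) hs
    exact R1.En_two hV hq (hA b)
  have hE0 : ∀ b, 0 ≤ En q (Fz n β m (fun _ => w) J) (f b) := fun b => R1C.En_nonneg (hf2 b)
  calc (∑ b, ∑ b' ∈ Finset.univ.erase b, En q (Fz n β m (fun _ => w) J)
        (Av (lf (row b ∪ row b')) (f b)))
      ≤ ∑ b, ∑ _b' ∈ Finset.univ.erase b,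
          (2 * En q (Fz n β m (fun _ => w) J) (f b) + ε) :=
        Finset.sum_le_sum fun b _ => Finset.sum_le_sum fun b' _ => by
          have := hL.nlow hV hq.x0 b b' (hf1 b) (hf2 b) (hf3 b)
          rwa [mul_one] at this
    _ ≤ ∑ b, (n : ℝ) * (2 * En q (Fz n β m (fun _ => w) J) (f b) + ε) := by
        refine Finset.sum_le_sum fun b _ => ?_
        rw [Finset.sum_const, nsmul_eq_mul]
        refine mul_le_mul_of_nonneg_right ?_ (by have := hE0 b; positivity)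
        have : (Finset.univ.erase b).card ≤ n := by
          refine (Finset.card_erase_le).trans ?_
          rw [Finset.card_univ, Fintype.card_fin]
        exact_mod_cast this
    _ = (n : ℝ) * (2 * (∑ b, En q (Fz n β m (fun _ => w) J) (f b)) + n * ε) := by
        rw [← Finset.mul_sum, Finset.sum_add_distrib, ← Finset.mul_sum, Finset.sum_const,
          Finset.card_univ, Fintype.card_fin, nsmul_eq_mul]
    _ ≤ (n : ℝ) * (2 * (e1 * n) + n * ε) := by gcongr
    _ = _ := by ring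

end xsum

end Vale.Agent.P146.U.H240
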